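import Vale.Agent.P262.H853.Small

/-! P262, helper853: local approximation of near-minimisers by smooth functions with small
residual. -/

namespace Vale.Agent.P262.H853

open MeasureTheory Filter Topology
open scoped ContDiff ENNReal
open Vale.Agent.P363.R.Sob

noncomputable section

variable {k J : ℕ} (S : Dat k J) (A : Fam k) {G χ c : Eu k → ℝ}

namespace Mseq

variable {S} (Z : Mseq S G)

/-- the quadratic part is bounded along the sequence -/
theorem Qbd (hG : Dat.Bd G) : ∃ B : ℝ, 0 ≤ B ∧ ∀ n, S.Qf (Z.ξ n) ≤ B := by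
  refine ⟨max 0 (2 * Z.B + 2 * ∫ x, S.a x * (G x * G x) * S.rho x), le_max_left _ _, fun n => ?_⟩
  have h1 := S.Qf_le hG (Z.test n)
  have h2 := Z.J n
  exact le_trans (by linarith) (le_max_right _ _)

theorem Qdiff (hG : Dat.Bd G) (n N : ℕ) :
    S.Qf (fun x => Z.ξ n x - Z.ξ N x) ≤ 2 * (ep n + ep N) :=
  S.Qf_sub_le hG (Z.test n) (Z.test N) (ep_pos n).le (ep_pos N).le (Z.R n) (Z.R N)

/-- local distance of two members of the sequence -/
theorem locdiff (hG : Dat.Bd G) (hχ : Test χ) (j : Fin k) : ∃ C : ℝ, 0 ≤ C ∧ ∀ n N,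
    ∫ x, (χ x * D j (Z.ξ n) x - χ x * D j (Z.ξ N) x) ^ 2 ≤ C * (ep n + ep N) := by
  obtain ⟨C, hC, h⟩ := S.loc_bound hχ
  refine ⟨2 * C, by positivity, fun n N => ?_⟩
  have h1 := (h _ (Test.sub (Z.test n) (Z.test N))).2 j
  have h2 := Z.Qdiff hG n N
  have e : ∀ x, (χ x * D j (Z.ξ n) x - χ x * D j (Z.ξ N) x) ^ 2
      = (χ x * D j (fun y => Z.ξ n y - Z.ξ N y) x) ^ 2 := by
    intro x
    rw [D_sub (Z.test n).1 (Z.test N).1]
    ring
  simp only [e]
  refine h1.trans ?_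
  have := mul_le_mul_of_nonneg_left h2 hC
  linarith

theorem T1_small (hG : Dat.Bd G) (hχ : Test χ) {q : Eu k → ℝ} (hq : Test q) :
    Small (fun t n => ∫ x, (q x * A.M t (fun y => χ y * Z.ξ n y) x
      - A.M t (fun y => q y * (χ y * Z.ξ n y)) x) ^ 2) := by
  obtain ⟨C, hC, h1⟩ := A.comm0 q hq
  obtain ⟨C', hC', h2⟩ := S.loc_bound hχ
  obtain ⟨B, hB, h3⟩ := Z.Qbd hG
  refine (Small.sq (b := C * (C' * B)) (by positivity)).mono fun t n ht ht1 => ?_
  have e1 := h1 t _ ht ht1 (hχ.mul (Z.test n).1)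
  have e2 := (h2 _ (Z.test n)).1
  have e3 := mul_le_mul_of_nonneg_left (h3 n) hC'
  refine e1.trans ?_
  calc C * t ^ 2 * ∫ x, (χ x * Z.ξ n x) ^ 2 ≤ C * t ^ 2 * (C' * B) :=
        mul_le_mul_of_nonneg_left (e2.trans e3) (by positivity)
    _ = _ := by ring

theorem T2_small {f : Eu k → ℝ} (hf : Test f) :
    Small (fun t _ => ∫ x, (f x - A.M t f x) ^ 2) := by
  obtain ⟨C, hC, h1⟩ := A.bd_id
  refine (Small.sq (b := C * ∑ i, ∫ x, D i f x ^ 2) (mul_nonneg hC (Finset.sum_nonneg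
    fun i _ => integral_nonneg fun x => sq_nonneg _))).mono fun t n ht ht1 => ?_
  have e1 := h1 t f ht ht1 hf
  have e2 : ∀ x, (f x - A.M t f x) ^ 2 = (A.M t f x - f x) ^ 2 := fun x => by ring
  simp only [e2]
  refine e1.trans (le_of_eq ?_)
  ring

theorem T3_small (hG : Dat.Bd G) (hχ : Test χ) {q : Eu k → ℝ} (hq : Test q) (i j : Fin k) :
    Small (fun t n => ∫ x, D i (fun y => q y * A.M t (fun z => χ z * D j (Z.ξ n) z) y
      - A.M t (fun z => q z * (χ z * D j (Z.ξ n) z)) y) x ^ 2) := by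
  obtain ⟨C1, hC1, h1⟩ := A.comm1 q i hq
  obtain ⟨C2, hC2, h2⟩ := A.comm2 q i hq
  obtain ⟨C3, hC3, h3⟩ := Z.locdiff hG hχ j
  have hf : ∀ n, Test (fun z => χ z * D j (Z.ξ n) z) := fun n =>
    hχ.mul (D_contDiff (Z.test n).1 j)
  refine ⟨2 * (C1 * C3), by positivity, fun N => ?_⟩
  set W : ℝ := (∫ x, (χ x * D j (Z.ξ N) x) ^ 2)
    + ∫ x, D i (fun z => χ z * D j (Z.ξ N) z) x ^ 2 with hW
  have hW0 : 0 ≤ W := add_nonneg (integral_nonneg fun x => sq_nonneg _)
    (integral_nonneg fun x => sq_nonneg _)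
  refine ⟨2 * (C2 * W), by positivity, fun t ht ht1 => ⟨0, le_rfl, fun n => ?_⟩⟩
  set f : Eu k → ℝ := fun z => χ z * D j (Z.ξ n) z with hfd
  set g : Eu k → ℝ := fun z => χ z * D j (Z.ξ N) z with hgd
  have hft : Test f := hf n
  have hgt : Test g := hf N
  have hd : Test (fun z => f z - g z) := Test.sub hft hgt
  have e0 : ∀ {h : Eu k → ℝ}, Test h → Test (fun y => q y * A.M t h y
      - A.M t (fun z => q z * h z) y) := fun hh =>
    Test.sub (hq.mul (A.M_test ht hh).1) (A.M_test ht (hq.mul hh.1))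
  have e1 : ∀ x, D i (fun y => q y * A.M t f y - A.M t (fun z => q z * f z) y) x
      = D i (fun y => q y * A.M t (fun z => f z - g z) y
          - A.M t (fun z => q z * (f z - g z)) y) x
        + D i (fun y => q y * A.M t g y - A.M t (fun z => q z * g z) y) x := by
    intro x
    rw [← D_add (e0 hd).1 (e0 hgt).1]
    congr 1
    ext y
    rw [A.M_sub ht hft hgt]
    have e2 : A.M t (fun z => q z * (f z - g z)) y
        = A.M t (fun z => q z * f z) y - A.M t (fun z => q z * g z) y := by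
      rw [← A.M_sub ht (hq.mul hft.1) (hq.mul hgt.1)]
      congr 1
      ext z; ring
    rw [e2]; ring
  have i1 : Integrable (fun x => D i (fun y => q y * A.M t (fun z => f z - g z) y
          - A.M t (fun z => q z * (f z - g z)) y) x ^ 2) := Test.sq_int (Test.D (e0 hd) i)
  have i2 : Integrable (fun x => D i (fun y => q y * A.M t g y
      - A.M t (fun z => q z * g z) y) x ^ 2) := Test.sq_int (Test.D (e0 hgt) i)
  have e3 : ∫ x, D i (fun y => q y * A.M t f y - A.M t (fun z => q z * f z) y) x ^ 2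
      ≤ 2 * (∫ x, D i (fun y => q y * A.M t (fun z => f z - g z) y
          - A.M t (fun z => q z * (f z - g z)) y) x ^ 2)
        + 2 * ∫ x, D i (fun y => q y * A.M t g y - A.M t (fun z => q z * g z) y) x ^ 2 := by
    rw [← integral_const_mul, ← integral_const_mul, ← integral_add (i1.const_mul 2)
      (i2.const_mul 2)]
    refine integral_mono (Test.sq_int (Test.D (e0 hft) i)) ((i1.const_mul 2).add
      (i2.const_mul 2)) fun x => ?_
    simp only
    rw [e1 x]
    nlinarith [sq_nonneg (D i (fun y => q y * A.M t (fun z => f z - g z) y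
          - A.M t (fun z => q z * (f z - g z)) y) x
        - D i (fun y => q y * A.M t g y - A.M t (fun z => q z * g z) y) x)]
  have e4 := h1 t _ ht ht1 hd
  have e5 := h2 t _ ht ht1 hgt
  have e6 := mul_le_mul_of_nonneg_left (h3 n N) hC1
  have e7 : C2 * t ^ 2 * ((∫ x, g x ^ 2) + ∫ x, D i g x ^ 2) = C2 * W * t ^ 2 := by
    rw [hW]; ring
  rw [e7] at e5
  refine e3.trans ?_
  have e8 : ∫ x, (f x - g x) ^ 2 = ∫ x, (χ x * D j (Z.ξ n) x - χ x * D j (Z.ξ N) x) ^ 2 := rfl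
  rw [e8] at e4
  linarith

/-- the residual of the mollified near-minimisers is locally small -/
theorem res_small (hG : Dat.Bd G) (hc : Test c) (hc0 : ∀ x, 0 ≤ c x) (hc1 : ∀ x, c x ≤ 1)
    {R : ℝ} (hcR : ∀ x, R ≤ ‖x‖ → c x = 0) (hχ : Test χ) (hχ1 : ∀ y, ‖y‖ < R + 3 → χ y = 1) :
    Small (fun t n => ∫ x, c x * (S.rho x * S.res G (A.M t (Z.ξ n)) x) ^ 2) := by
  have hα := S.al_test hχ
  have hb := fun i j => S.bc_test hχ i j
  have h1 := Z.T1_small A hG hχ hα
  have h2 := Mseq.T2_small A (hα.mul hG.smooth)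
  have h3 := fun i j => Z.T3_small A hG hχ (hb i j) i j
  have hcK : ∀ t : ℝ, ∃ C : ℝ, 0 ≤ C ∧ (0 < t → t ≤ 1 → ∀ x, ‖x‖ ≤ R → S.Qf (A.K t x) ≤ C) := by
    intro t
    by_cases ht : 0 < t ∧ t ≤ 1
    · obtain ⟨C, hC, h⟩ := S.K_bound A R ht.1 ht.2
      exact ⟨C, hC, fun _ _ => h⟩
    · exact ⟨0, le_rfl, fun a b => absurd ⟨a, b⟩ ht⟩
  choose CK hCK hCK1 using hcK
  have h4 : Small (fun t n => (CK t * ∫ x, c x) * ep n) := Small.ep fun t _ _ =>
    mul_nonneg (hCK t) (integral_nonneg hc0)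
  have h5 := Small.sum Finset.univ fun i => Small.sum Finset.univ fun j => h3 i j
  have htot := (((h1.const_mul (r := 4) (by norm_num)).add
    (h2.const_mul (r := 4) (by norm_num))).add
    (h5.const_mul (r := 4 * ((k : ℝ) * k)) (by positivity))).add
    (h4.const_mul (r := 4) (by norm_num))
  refine htot.mono fun t n ht ht1 => ?_
  set ξ := Z.ξ n with hξd
  have hξ : Test ξ := Z.test n
  set T1 : Eu k → ℝ := fun x => S.al χ x * A.M t (fun y => χ y * ξ y) x
          - A.M t (fun y => S.al χ y * (χ y * ξ y)) x with hT1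
  set T2 : Eu k → ℝ := fun x => S.al χ x * G x - A.M t (fun y => S.al χ y * G y) x with hT2
  set T3 : Fin k → Fin k → Eu k → ℝ := fun i j x =>
    D i (fun y => S.bc χ i j y * A.M t (fun z => χ z * D j ξ z) y
            - A.M t (fun z => S.bc χ i j z * (χ z * D j ξ z)) y) x with hT3
  have t1 : Test T1 := Test.sub (hα.mul (A.M_test ht (hχ.mul hξ.1)).1)
    (A.M_test ht (hα.mul (hχ.mul hξ.1).1))
  have t2 : Test T2 := Test.sub (hα.mul hG.smooth) (A.M_test ht (hα.mul hG.smooth))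
  have t3 : ∀ i j, Test (T3 i j) := fun i j => Test.D (Test.sub
    ((hb i j).mul (A.M_test ht (hχ.mul (D_contDiff hξ.1 j))).1)
    (A.M_test ht ((hb i j).mul (hχ.mul (D_contDiff hξ.1 j)).1))) i
  have i1 := (Test.sq_int t1).const_mul 4
  have i2 := (Test.sq_int t2).const_mul 4
  have i3 : Integrable (fun x => 4 * ((k : ℝ) * k) * ∑ i, ∑ j, T3 i j x ^ 2) :=
    (integrable_finsetSum _ fun i _ => integrable_finsetSum _ fun j _ =>
      Test.sq_int (t3 i j)).const_mul _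
  have i4 : Integrable (fun x => 4 * (CK t * ep n) * c x) := (Test.integrable hc).const_mul _
  have hpt : ∀ x, c x * (S.rho x * S.res G (A.M t ξ) x) ^ 2
      ≤ 4 * T1 x ^ 2 + 4 * T2 x ^ 2 + 4 * ((k : ℝ) * k) * (∑ i, ∑ j, T3 i j x ^ 2)
        + 4 * (CK t * ep n) * c x := by
    intro x
    rcases le_or_gt R ‖x‖ with hx | hx
    · have : 0 ≤ ∑ i, ∑ j, T3 i j x ^ 2 := Finset.sum_nonneg fun i _ =>
        Finset.sum_nonneg fun j _ => sq_nonneg _
      rw [hcR x hx, zero_mul, mul_zero, add_zero]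
      positivity
    · have e1 := S.res_eq A hG.smooth hξ hχ hχ1 ht ht1 hx
      have e2 : S.rho x * S.res G (A.M t ξ) x = T1 x - T2 x - (∑ i, ∑ j, T3 i j x)
          + S.Rf G ξ (A.K t x) := e1
      have e3 : (∑ i, ∑ j, T3 i j x) ^ 2 ≤ ((k : ℝ) * k) * ∑ i, ∑ j, T3 i j x ^ 2 := by
        have a1 := sq_sum_le_card_mul_sum_sq (s := (Finset.univ : Finset (Fin k)))
          (f := fun i => ∑ j, T3 i j x)
        have a2 : ∀ i, (∑ j, T3 i j x) ^ 2 ≤ (k : ℝ) * ∑ j, T3 i j x ^ 2 := fun i => by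
          have := sq_sum_le_card_mul_sum_sq (s := (Finset.univ : Finset (Fin k)))
            (f := fun j => T3 i j x)
          simpa using this
        have a3 : ∑ i, (∑ j, T3 i j x) ^ 2 ≤ (k : ℝ) * ∑ i, ∑ j, T3 i j x ^ 2 := by
          rw [Finset.mul_sum]
          exact Finset.sum_le_sum fun i _ => a2 i
        simp only [Finset.card_univ, Fintype.card_fin] at a1
        refine a1.trans ?_
        rw [mul_assoc]
        exact mul_le_mul_of_nonneg_left a3 (by positivity)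
      have e4 : S.Rf G ξ (A.K t x) ^ 2 ≤ CK t * ep n := by
        have b1 := Z.R n (A.K t x) (A.K_test x ht)
        have b2 := hCK1 t ht ht1 x hx.le
        refine b1.trans ?_
        rw [mul_comm (CK t)]
        exact mul_le_mul_of_nonneg_left b2 (ep_pos n).le
      rw [e2]
      set p := T1 x
      set q := T2 x
      set s := ∑ i, ∑ j, T3 i j x
      set r := S.Rf G ξ (A.K t x)
      have e5 : (p - q - s + r) ^ 2 ≤ 4 * p ^ 2 + 4 * q ^ 2 + 4 * s ^ 2 + 4 * r ^ 2 := by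
        nlinarith [sq_nonneg (p + q), sq_nonneg (p + s), sq_nonneg (p - r), sq_nonneg (q - s),
          sq_nonneg (q + r), sq_nonneg (s + r)]
      have hcx := hc0 x
      have hcx1 := hc1 x
      have e6 : c x * (p - q - s + r) ^ 2
          ≤ c x * (4 * p ^ 2 + 4 * q ^ 2 + 4 * s ^ 2) + c x * (4 * (CK t * ep n)) := by
        rw [← mul_add]
        exact mul_le_mul_of_nonneg_left (by linarith) hcx
      have e7 : c x * (4 * p ^ 2 + 4 * q ^ 2 + 4 * s ^ 2) ≤ 4 * p ^ 2 + 4 * q ^ 2 + 4 * s ^ 2 :=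
        mul_le_of_le_one_left (by positivity) hcx1
      linarith
  have i5 : Integrable (fun x => 4 * T1 x ^ 2 + 4 * T2 x ^ 2) := i1.add i2
  have i6 : Integrable (fun x => 4 * T1 x ^ 2 + 4 * T2 x ^ 2
      + 4 * ((k : ℝ) * k) * (∑ i, ∑ j, T3 i j x ^ 2)) := i5.add i3
  have hmain : ∫ x, c x * (S.rho x * S.res G (A.M t ξ) x) ^ 2
      ≤ ∫ x, (4 * T1 x ^ 2 + 4 * T2 x ^ 2 + 4 * ((k : ℝ) * k) * (∑ i, ∑ j, T3 i j x ^ 2)
        + 4 * (CK t * ep n) * c x) :=
    integral_mono_of_nonneg (Eventually.of_forall fun x => mul_nonneg (hc0 x) (sq_nonneg _))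
      (i6.add i4) (Eventually.of_forall hpt)
  refine hmain.trans (le_of_eq ?_)
  rw [integral_add i6 i4, integral_add i5 i3, integral_add i1 i2, integral_const_mul,
    integral_const_mul, integral_const_mul, integral_const_mul,
    integral_finsetSum _ fun i _ => integrable_finsetSum _ fun j _ => Test.sq_int (t3 i j)]
  have e9 : ∀ i, ∫ x, ∑ j, T3 i j x ^ 2 = ∑ j, ∫ x, T3 i j x ^ 2 := fun i =>
    integral_finsetSum _ fun j _ => Test.sq_int (t3 i j)
  simp only [e9]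
  ring

theorem val_small (hG : Dat.Bd G) (hc0 : ∀ x, 0 ≤ c x) (hc1 : ∀ x, c x ≤ 1)
    {R : ℝ} (hcR : ∀ x, R ≤ ‖x‖ → c x = 0) (hχ : Test χ) (hχ1 : ∀ y, ‖y‖ < R + 3 → χ y = 1) :
    Small (fun t n => ∫ x, c x * (A.M t (Z.ξ n) x - Z.ξ n x) ^ 2) := by
  obtain ⟨C, hC, h1⟩ := A.bd_id
  obtain ⟨C', hC', h2⟩ := S.loc_bound hχ
  have h3 := fun i => S.loc_bound (Test.D hχ i)
  choose C3 hC3 h3 using h3
  obtain ⟨B, hB, h4⟩ := Z.Qbd hG
  refine (Small.sq (b := C * ∑ i, (2 * (C3 i * B) + 2 * (C' * B))) (mul_nonneg hC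
    (Finset.sum_nonneg fun i _ => by have := hC3 i; positivity))).mono fun t n ht ht1 => ?_
  have hξ := Z.test n
  have hζ : Test (fun y => χ y * Z.ξ n y) := hχ.mul hξ.1
  have e1 := h1 t _ ht ht1 hζ
  have e2 : ∀ i, ∫ x, D i (fun y => χ y * Z.ξ n y) x ^ 2 ≤ 2 * (C3 i * B) + 2 * (C' * B) := by
    intro i
    have a1 := (h3 i _ hξ).1
    have a2 := (h2 _ hξ).2 i
    have i1 := (Test.sq_int ((Test.D hχ i).mul hξ.1)).const_mul 2
    have i2 := (Test.sq_int (hχ.mul (D_contDiff hξ.1 i))).const_mul 2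
    have a3 : ∫ x, D i (fun y => χ y * Z.ξ n y) x ^ 2
        ≤ ∫ x, (2 * (D i χ x * Z.ξ n x) ^ 2 + 2 * (χ x * D i (Z.ξ n) x) ^ 2) := by
      refine integral_mono (Test.sq_int (Test.D hζ i)) (i1.add i2) fun x => ?_
      simp only
      rw [D_mul hχ.1 hξ.1]
      nlinarith [sq_nonneg (D i χ x * Z.ξ n x - χ x * D i (Z.ξ n) x)]
    refine a3.trans ?_
    rw [integral_add i1 i2, integral_const_mul, integral_const_mul]
    have a4 := mul_le_mul_of_nonneg_left (h4 n) (hC3 i)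
    have a5 := mul_le_mul_of_nonneg_left (h4 n) hC'
    linarith
  have e3 : ∫ x, c x * (A.M t (Z.ξ n) x - Z.ξ n x) ^ 2
      ≤ ∫ x, (A.M t (fun y => χ y * Z.ξ n y) x - χ x * Z.ξ n x) ^ 2 := by
    refine integral_mono_of_nonneg (Eventually.of_forall fun x => mul_nonneg (hc0 x) (sq_nonneg _))
      (Test.sq_int (Test.sub (A.M_test ht hζ) hζ)) (Eventually.of_forall fun x => ?_)
    simp only
    rcases le_or_gt R ‖x‖ with hx | hx
    · rw [hcR x hx, zero_mul]; positivity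
    · have b1 : A.M t (Z.ξ n) x = A.M t (fun y => χ y * Z.ξ n y) x := by
        refine A.M_congr ht hξ hζ fun z hz => ?_
        have : ‖z‖ < R + 3 := by
          calc ‖z‖ = ‖(z - x) + x‖ := by congr 1; abel
            _ ≤ ‖z - x‖ + ‖x‖ := norm_add_le _ _
            _ < R + 3 := by linarith
        rw [hχ1 z this, one_mul]
      rw [b1, hχ1 x (by linarith), one_mul]
      exact mul_le_of_le_one_left (sq_nonneg _) (hc1 x)
  refine e3.trans (e1.trans ?_)
  have e4 := Finset.sum_le_sum fun i (_ : i ∈ Finset.univ) => e2 i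
  calc C * t ^ 2 * ∑ i, ∫ x, D i (fun y => χ y * Z.ξ n y) x ^ 2
      ≤ C * t ^ 2 * ∑ i, (2 * (C3 i * B) + 2 * (C' * B)) :=
        mul_le_mul_of_nonneg_left e4 (by positivity)
    _ = _ := by ring

theorem grad_small (hG : Dat.Bd G) (hc0 : ∀ x, 0 ≤ c x) (hc1 : ∀ x, c x ≤ 1)
    {R : ℝ} (hcR : ∀ x, R ≤ ‖x‖ → c x = 0) (hχ : Test χ) (hχ1 : ∀ y, ‖y‖ < R + 3 → χ y = 1)
    (j : Fin k) :
    Small (fun t n => ∫ x, c x * (D j (A.M t (Z.ξ n)) x - D j (Z.ξ n) x) ^ 2) := by
  obtain ⟨C, hC, h1⟩ := A.bd_id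
  obtain ⟨C', hC', h2⟩ := A.bd_M
  obtain ⟨C3, hC3, h3⟩ := Z.locdiff hG hχ j
  have hf : ∀ n, Test (fun z => χ z * D j (Z.ξ n) z) := fun n =>
    hχ.mul (D_contDiff (Z.test n).1 j)
  refine ⟨3 * (C' * C3) + 3 * C3, by positivity, fun N => ?_⟩
  set W : ℝ := ∑ i, ∫ x, D i (fun z => χ z * D j (Z.ξ N) z) x ^ 2 with hW
  have hW0 : 0 ≤ W := Finset.sum_nonneg fun i _ => integral_nonneg fun x => sq_nonneg _
  refine ⟨3 * (C * W), by positivity, fun t ht ht1 => ⟨0, le_rfl, fun n => ?_⟩⟩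
  set f : Eu k → ℝ := fun z => χ z * D j (Z.ξ n) z with hfd
  set g : Eu k → ℝ := fun z => χ z * D j (Z.ξ N) z with hgd
  have hft : Test f := hf n
  have hgt : Test g := hf N
  have hd : Test (fun z => f z - g z) := Test.sub hft hgt
  have i1 : Integrable (fun x => A.M t (fun z => f z - g z) x ^ 2) :=
    Test.sq_int (A.M_test ht hd)
  have i2 : Integrable (fun x => (A.M t g x - g x) ^ 2) :=
    Test.sq_int (Test.sub (A.M_test ht hgt) hgt)
  have i3 : Integrable (fun x => (f x - g x) ^ 2) := Test.sq_int hd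
  have i12 := ((i1.const_mul 3).add (i2.const_mul 3))
  have e3 : ∫ x, c x * (D j (A.M t (Z.ξ n)) x - D j (Z.ξ n) x) ^ 2
      ≤ ∫ x, (3 * A.M t (fun z => f z - g z) x ^ 2 + 3 * (A.M t g x - g x) ^ 2
        + 3 * (f x - g x) ^ 2) := by
    refine integral_mono_of_nonneg (Eventually.of_forall fun x => mul_nonneg (hc0 x) (sq_nonneg _))
      (i12.add (i3.const_mul 3)) (Eventually.of_forall fun x => ?_)
    simp only
    rcases le_or_gt R ‖x‖ with hx | hx
    · rw [hcR x hx, zero_mul]; positivity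
    · have b1 : D j (A.M t (Z.ξ n)) x = A.M t f x := by
        rw [A.D_M j x ht (Z.test n)]
        refine A.M_congr ht (Test.D (Z.test n) j) hft fun z hz => ?_
        have : ‖z‖ < R + 3 := by
          calc ‖z‖ = ‖(z - x) + x‖ := by congr 1; abel
            _ ≤ ‖z - x‖ + ‖x‖ := norm_add_le _ _
            _ < R + 3 := by linarith
        rw [hfd]
        simp only
        rw [hχ1 z this, one_mul]
      have b2 : D j (Z.ξ n) x = f x := by
        rw [hfd]; simp only; rw [hχ1 x (by linarith), one_mul]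
      rw [b1, b2]
      refine (mul_le_of_le_one_left (sq_nonneg _) (hc1 x)).trans ?_
      rw [A.M_sub ht hft hgt]
      nlinarith [sq_nonneg ((A.M t f x - A.M t g x) - (A.M t g x - g x)),
        sq_nonneg ((A.M t f x - A.M t g x) + (f x - g x)),
        sq_nonneg ((A.M t g x - g x) + (f x - g x))]
  have e4 := h1 t _ ht ht1 hgt
  have e5 := h2 t _ ht ht1 hd
  have e6 := h3 n N
  have e7 := mul_le_mul_of_nonneg_left e6 hC'
  have e8 : ∫ x, (f x - g x) ^ 2 = ∫ x, (χ x * D j (Z.ξ n) x - χ x * D j (Z.ξ N) x) ^ 2 := rfl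
  rw [← e8] at e6 e7
  refine e3.trans ?_
  have e9 := integral_add i12 (i3.const_mul 3)
  have e10 := integral_add (i1.const_mul 3) (i2.const_mul 3)
  simp only [Pi.add_apply] at e9
  rw [e9, e10, integral_const_mul, integral_const_mul, integral_const_mul]
  have e11 : C * t ^ 2 * ∑ i, ∫ x, D i g x ^ 2 = C * W * t ^ 2 := by rw [hW]; ring
  rw [e11] at e4
  linarith

end Mseq

end

end Vale.Agent.P262.H853
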