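import Mathlib

/-! P262, helper853: the elementary inequality behind the localised Bochner estimate. -/

namespace Vale.Agent.P262.H853

theorem young {a κ x y : ℝ} (hκ : 0 ≤ κ) (hx : 0 ≤ x) (hy : 0 ≤ y)
    (h : a ^ 2 ≤ κ ^ 2 * (x * y)) : 2 * a ≤ κ * (x + y) := by
  have h1 : (2 * a) ^ 2 ≤ (κ * (x + y)) ^ 2 := by
    nlinarith [mul_nonneg (sq_nonneg κ) (sq_nonneg (x - y))]
  exact le_of_abs_le (abs_le_of_sq_le_sq h1 (by positivity))

theorem arith0 {w q s Fz f2 af2 ip : ℝ}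
    (hs : s = 100 + w ^ 2 + q) (hq : 0 ≤ q)
    (haf : af2 ≤ f2) (haf0 : 0 ≤ af2) (hip : ip ^ 2 ≤ q * af2) :
    (w * Fz + ip) ^ 2 ≤ s * (Fz ^ 2 + f2) := by
  have h1 : (w * Fz + ip) ^ 2 ≤ (w ^ 2 + q) * (Fz ^ 2 + af2) := by
    have h2 : 2 * (w * Fz * ip) ≤ 1 * (w ^ 2 * af2 + q * Fz ^ 2) := by
      apply young (by norm_num) (by positivity) (by positivity)
      have : (w * Fz * ip) ^ 2 = (w ^ 2 * Fz ^ 2) * ip ^ 2 := by ring
      rw [this]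
      have h3 : (w ^ 2 * Fz ^ 2) * ip ^ 2 ≤ (w ^ 2 * Fz ^ 2) * (q * af2) :=
        mul_le_mul_of_nonneg_left hip (by positivity)
      refine h3.trans (le_of_eq ?_)
      ring
    have e : (w * Fz + ip) ^ 2 = w ^ 2 * Fz ^ 2 + 2 * (w * Fz * ip) + ip ^ 2 := by ring
    have e' : (w ^ 2 + q) * (Fz ^ 2 + af2)
      = w ^ 2 * Fz ^ 2 + (w ^ 2 * af2 + q * Fz ^ 2) + q * af2 := by ring
    rw [e, e']
    linarith
  have h4 : (w ^ 2 + q) * (Fz ^ 2 + af2) ≤ s * (Fz ^ 2 + f2) := by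
    apply mul_le_mul _ _ (by positivity) (by rw [hs]; positivity)
    · rw [hs]; linarith
    · linarith
  exact h1.trans h4

theorem arith1 {c o w s T H f2 af2 Fz pf tr dv cF cFF κ : ℝ} (hc : 0 ≤ c) (ho : 0 < o)
    (ho1 : o ≤ 1 / 10) (hH : H = Fz ^ 2 + f2) (hws : w ^ 2 ≤ s) (hos : o ^ 2 * s = 1)
    (haf0 : 0 ≤ af2) (hf2 : 0 ≤ f2) (hT2 : T ^ 2 ≤ s * H) (hpf : 0 ≤ pf) (htr : 0 ≤ tr)
    (hκ : 0 ≤ κ) (hκ1 : κ ≤ 1) (hcF : cF ^ 2 ≤ κ ^ 2 * (c * f2)) (hcFF : cFF ≤ κ * f2) :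
    c * o * dv ^ 2 - c * o * tr - c * o * (Fz ^ 2 - w * pf + f2)
      + (c * (3 * o ^ 5 * T ^ 2 - o ^ 3 * (Fz ^ 2 - w * pf + af2))
          + 2 * cF * (- o ^ 3 * T) + o * cFF)
      + 2 * (dv * (c * (- o ^ 3 * T) + o * cF))
    ≤ (11 / 10 + κ) * (c * o * dv ^ 2) + 2 * (c * pf) - (87 / 100 - κ) * (c * o * f2)
      + 3 * κ * (o * f2) := by
  have hH0 : 0 ≤ H := by rw [hH]; positivity
  have ho2 : o ^ 2 ≤ 1 / 100 := by
    have := mul_le_mul ho1 ho1 ho.le (by norm_num)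
    linarith [sq o]
  have hoT : o ^ 2 * T ^ 2 ≤ H := by
    calc o ^ 2 * T ^ 2 ≤ o ^ 2 * (s * H) := mul_le_mul_of_nonneg_left hT2 (by positivity)
      _ = H := by rw [← mul_assoc, hos, one_mul]
  have how : o * w ≤ 1 := by
    have : (o * w) ^ 2 ≤ 1 ^ 2 := by
      calc (o * w) ^ 2 = o ^ 2 * w ^ 2 := by ring
        _ ≤ o ^ 2 * s := mul_le_mul_of_nonneg_left hws (by positivity)
        _ = 1 ^ 2 := by rw [hos]; norm_num
    exact le_of_abs_le (abs_le_of_sq_le_sq this (by norm_num))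
  have hco : 0 ≤ c * o := by positivity
  have p1 : 0 ≤ c * o * tr := by positivity
  have p2 : c * o * (w * pf) ≤ c * pf := by
    have : c * pf * (o * w) ≤ c * pf * 1 := mul_le_mul_of_nonneg_left how (by positivity)
    linarith
  have h5 : o ^ 2 * (o ^ 2 * T ^ 2) ≤ 1 / 100 * H :=
    mul_le_mul ho2 hoT (by positivity) (by norm_num)
  have p3 : c * (3 * o ^ 5 * T ^ 2) ≤ 3 / 100 * (c * o * H) := by
    have h1 : c * (3 * o ^ 5 * T ^ 2) = 3 * (c * o) * (o ^ 2 * (o ^ 2 * T ^ 2)) := by ring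
    rw [h1]
    have := mul_le_mul_of_nonneg_left h5 (show 0 ≤ 3 * (c * o) by positivity)
    linarith
  have p4 : 0 ≤ c * (o ^ 3 * (Fz ^ 2 + af2)) := by positivity
  have p4' : c * (o ^ 3 * (w * pf)) ≤ 1 / 100 * (c * pf) := by
    have h1 : c * (o ^ 3 * (w * pf)) = c * pf * (o ^ 2 * (o * w)) := by ring
    have h2 : o ^ 2 * (o * w) ≤ 1 / 100 := by
      have : o ^ 2 * (o * w) ≤ o ^ 2 * 1 := mul_le_mul_of_nonneg_left how (by positivity)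
      linarith
    rw [h1]
    have := mul_le_mul_of_nonneg_left h2 (show 0 ≤ c * pf by positivity)
    linarith
  have ho5 : 10 * o ^ 5 * c * T ^ 2 ≤ 1 / 10 * (c * o * H) := by
    have h1 : 10 * o ^ 5 * c * T ^ 2 = 10 * (c * o) * (o ^ 2 * (o ^ 2 * T ^ 2)) := by ring
    rw [h1]
    have := mul_le_mul_of_nonneg_left h5 (show 0 ≤ 10 * (c * o) by positivity)
    linarith
  have p5 : 2 * (cF * (- o ^ 3 * T)) ≤ κ * (o * f2 / 10 + 10 * o ^ 5 * c * T ^ 2) := by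
    apply young hκ (by positivity) (by positivity)
    have h1 : (cF * (- o ^ 3 * T)) ^ 2 = cF ^ 2 * (o ^ 6 * T ^ 2) := by ring
    have h2 : cF ^ 2 * (o ^ 6 * T ^ 2) ≤ κ ^ 2 * (c * f2) * (o ^ 6 * T ^ 2) :=
      mul_le_mul_of_nonneg_right hcF (by positivity)
    rw [h1]
    refine h2.trans (le_of_eq ?_)
    ring
  have p6 : o * cFF ≤ κ * (o * f2) := by
    have := mul_le_mul_of_nonneg_left hcFF ho.le
    linarith
  have p7 : 2 * (dv * (c * (- o ^ 3 * T))) ≤ 1 * (c * o * dv ^ 2 / 10 + 10 * o ^ 5 * c * T ^ 2) := by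
    apply young (by norm_num) (by positivity) (by positivity)
    refine le_of_eq ?_
    ring
  have p8 : 2 * (dv * cF) ≤ κ * (c * dv ^ 2 + f2) := by
    apply young hκ (by positivity) (by positivity)
    have h1 : (dv * cF) ^ 2 = cF ^ 2 * dv ^ 2 := by ring
    have h2 : cF ^ 2 * dv ^ 2 ≤ κ ^ 2 * (c * f2) * dv ^ 2 :=
      mul_le_mul_of_nonneg_right hcF (by positivity)
    rw [h1]
    refine h2.trans (le_of_eq ?_)
    ring
  have p8' : o * (2 * (dv * cF)) ≤ κ * (c * o * dv ^ 2) + κ * (o * f2) := by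
    have := mul_le_mul_of_nonneg_left p8 ho.le
    linarith
  have p5' : 2 * (cF * (- o ^ 3 * T)) ≤ κ * (o * f2) / 10 + κ / 10 * (c * o * H) := by
    have := mul_le_mul_of_nonneg_left ho5 hκ
    linarith
  have hHf : f2 ≤ H := by rw [hH]; linarith [sq_nonneg Fz]
  have p9 : (87 / 100 - κ / 10) * (c * o * f2) ≤ (87 / 100 - κ / 10) * (c * o * H) :=
    mul_le_mul_of_nonneg_left (mul_le_mul_of_nonneg_left hHf hco) (by linarith)
  have p10 : 0 ≤ κ * (c * o * f2) := by positivity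
  have p11 : 0 ≤ κ * (o * f2) := by positivity
  have p12 : 0 ≤ c * pf := by positivity
  have e1 : c * o * (Fz ^ 2 - w * pf + f2) = c * o * H - c * o * (w * pf) := by rw [hH]; ring
  have e2 : c * (3 * o ^ 5 * T ^ 2 - o ^ 3 * (Fz ^ 2 - w * pf + af2))
      = c * (3 * o ^ 5 * T ^ 2) - c * (o ^ 3 * (Fz ^ 2 + af2)) + c * (o ^ 3 * (w * pf)) := by ring
  have e3 : 2 * cF * (- o ^ 3 * T) = 2 * (cF * (- o ^ 3 * T)) := by ring
  have e4 : 2 * (dv * (c * (- o ^ 3 * T) + o * cF))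
      = 2 * (dv * (c * (- o ^ 3 * T))) + o * (2 * (dv * cF)) := by ring
  rw [e1, e2, e3, e4]
  linarith

theorem arith {c o w q s Fz f2 af2 ip pf tr dv cF cFF κ : ℝ} (hc : 0 ≤ c) (ho : 0 < o)
    (ho1 : o ≤ 1 / 10) (hs : s = 100 + w ^ 2 + q) (hq : 0 ≤ q) (hos : o ^ 2 * s = 1)
    (haf : af2 ≤ f2) (haf0 : 0 ≤ af2) (hip : ip ^ 2 ≤ q * af2) (hpf : 0 ≤ pf) (htr : 0 ≤ tr)
    (hκ : 0 ≤ κ) (hκ1 : κ ≤ 1) (hcF : cF ^ 2 ≤ κ ^ 2 * (c * f2)) (hcFF : cFF ≤ κ * f2) :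
    c * o * dv ^ 2 - c * o * tr - c * o * (Fz ^ 2 - w * pf + f2)
      + (c * (3 * o ^ 5 * (w * Fz + ip) ^ 2 - o ^ 3 * (Fz ^ 2 - w * pf + af2))
          + 2 * cF * (- o ^ 3 * (w * Fz + ip)) + o * cFF)
      + 2 * (dv * (c * (- o ^ 3 * (w * Fz + ip)) + o * cF))
    ≤ (11 / 10 + κ) * (c * o * dv ^ 2) + 2 * (c * pf) - (87 / 100 - κ) * (c * o * f2)
      + 3 * κ * (o * f2) := by
  have hT := arith0 hs hq haf haf0 hip (Fz := Fz)
  exact arith1 hc ho ho1 rfl (by rw [hs]; linarith) hos haf0 (haf0.trans haf) hT hpf htr hκ hκ1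
    hcF hcFF

end Vale.Agent.P262.H853
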