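import Vale.Agent.P262.H853.Small

/-! P262, helper853: the localised Bochner inequality for a test function. -/

namespace Vale.Agent.P262.H853

open MeasureTheory Filter Topology
open scoped ContDiff ENNReal
open Vale.Agent.P363.R.Sob

noncomputable section

variable {k J : ℕ} (S : Dat k J)

/-- the Bochner integrand is integrable -/
theorem integral_dvg_int {Ω U : Eu k → ℝ} {F : Fin k → Eu k → ℝ} (hΩ : Test Ω)
    (hU : ContDiff ℝ ∞ U) (hF : ∀ i, ContDiff ℝ ∞ (F i)) :
    Integrable (fun x => (Ω x * dvg U F x ^ 2 - Ω x * ∑ i, ∑ j, D j (F i) x * D i (F j) x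
      - Ω x * ∑ i, ∑ j, D i (D j U) x * F i x * F j x
      + ∑ i, ∑ j, D i (D j Ω) x * F i x * F j x
      + 2 * (dvg U F x * ∑ j, D j Ω x * F j x)) * Real.exp (- U x)) := by
  have h1 : Test (fun x => dvg U (Zf Ω U F) x * Real.exp (- U x)) := by
    refine Test.mul ?_ hU.neg.exp
    have hZ := fun i => test_Zf hΩ hU hF i
    exact Test.sum _ fun i => Test.sub (Test.D (hZ i) i) (Test.mul' (D_contDiff hU i) (hZ i))
  refine (Test.integrable h1).congr (Eventually.of_forall fun x => ?_)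
  simp only [bochner_pt hΩ.1 hU hF x]

/-- a good cut-off function -/
structure Cut (κ : ℝ) (c c' : Eu k → ℝ) : Prop where
  test : Test c
  nonneg : ∀ x, 0 ≤ c x
  le_one : ∀ x, c x ≤ 1
  test' : Test c'
  nonneg' : ∀ x, 0 ≤ c' x
  le_one' : ∀ x, c' x ≤ 1
  one' : ∀ x ∈ tsupport c, c' x = 1
  h1 : ∀ x (v : Fin k → ℝ), (∑ j, D j c x * v j) ^ 2 ≤ κ ^ 2 * (c x * ∑ j, v j ^ 2)
  h2 : ∀ x (v : Fin k → ℝ), ∑ i, ∑ j, D i (D j c) x * v i * v j ≤ κ * ∑ j, v j ^ 2

theorem Cut.le {κ : ℝ} {c c' : Eu k → ℝ} (h : Cut κ c c') (x : Eu k) : c x ≤ c' x := by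
  by_cases hx : x ∈ tsupport c
  · rw [h.one' x hx]; exact h.le_one x
  · rw [image_eq_zero_of_notMem_tsupport hx]; exact h.nonneg' x

namespace Dat

variable {η : Eu k → ℝ} {c c' : Eu k → ℝ} {κ : ℝ}

theorem bo_loc (hη : Test η) (hκ : 0 ≤ κ) (hκ1 : κ ≤ 1) (hc : Cut κ c c') :
    (87 / 100 - κ) * ∫ x, c x * S.om x * (∑ j, S.Fl η j x ^ 2) * S.rho x
      ≤ (11 / 10 + κ) * (∫ x, c x * S.om x * dvg S.U (S.Fl η) x ^ 2 * S.rho x)
        + (∫ x, c x * S.en η η x * S.rho x)
        + 3 * κ * ∫ x, c' x * S.om x * (∑ j, S.Fl η j x ^ 2) * S.rho x := by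
  set F := S.Fl η with hF
  have hFs : ∀ i, ContDiff ℝ ∞ (F i) := fun i => S.Fl_contDiff hη.1 i
  have hFt : ∀ i, Test (F i) := fun i => S.Fl_test hη i
  have ho := S.om_contDiff
  have hr := S.rho_contDiff
  have hΩ : Test (fun x => c x * S.om x) := hc.test.mul ho
  have hB := bochner hΩ S.U_contDiff hFs
  have hsq : ContDiff ℝ ∞ (fun x => ∑ j, F j x ^ 2) := ContDiff.sum fun j _ => (hFs j).pow 2
  have hdv := dvg_contDiff S.U_contDiff hFs
  -- integrability
  have i1 : Integrable (fun x => c x * S.om x * (∑ j, F j x ^ 2) * S.rho x) :=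
    Test.integrable ((hΩ.mul hsq).mul hr)
  have i2 : Integrable (fun x => c x * S.om x * dvg S.U F x ^ 2 * S.rho x) :=
    Test.integrable ((hΩ.mul (hdv.pow 2)).mul hr)
  have hen : ContDiff ℝ ∞ (S.en η η) := (S.en_test hη.1 hη).1
  have i3 : Integrable (fun x => c x * S.en η η x * S.rho x) :=
    Test.integrable ((hc.test.mul hen).mul hr)
  have i4 : Integrable (fun x => c' x * S.om x * (∑ j, F j x ^ 2) * S.rho x) :=
    Test.integrable (((hc.test'.mul ho).mul hsq).mul hr)
  have hpt : ∀ x, ((c x * S.om x) * dvg S.U F x ^ 2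
      - (c x * S.om x) * ∑ i, ∑ j, D j (F i) x * D i (F j) x
      - (c x * S.om x) * ∑ i, ∑ j, D i (D j S.U) x * F i x * F j x
      + ∑ i, ∑ j, D i (D j (fun y => c y * S.om y)) x * F i x * F j x
      + 2 * (dvg S.U F x * ∑ j, D j (fun y => c y * S.om y) x * F j x)) * Real.exp (- S.U x)
    ≤ (11 / 10 + κ) * (c x * S.om x * dvg S.U F x ^ 2 * S.rho x)
      + c x * S.en η η x * S.rho x
      - (87 / 100 - κ) * (c x * S.om x * (∑ j, F j x ^ 2) * S.rho x)
      + 3 * κ * (c' x * S.om x * (∑ j, F j x ^ 2) * S.rho x) := by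
    intro x
    have hrho : Real.exp (- S.U x) = S.rho x := rfl
    rw [hrho]
    have hr0 := S.rho_pos x
    have ho0 := S.om_pos x
    have hf0 : 0 ≤ ∑ j, F j x ^ 2 := Finset.sum_nonneg fun j _ => sq_nonneg _
    by_cases hx : x ∈ tsupport c
    · have htr := S.trace_nonneg hFs (g := fun y => 1 / 2 * η y) (contDiff_const.mul hη.1)
        (fun i y => by
          rw [hF, S.P_Fl, D_mul contDiff_const hη.1, D_const]; ring) x
      have hp := S.point hc.test.1 (F := F) (x := x) (hc.nonneg x) hκ hκ1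
        (hc.h1 x fun j => F j x) (hc.h2 x fun j => F j x) htr
      have hp2 := mul_le_mul_of_nonneg_right hp hr0.le
      refine hp2.trans (le_of_eq ?_)
      rw [hc.one' x hx, S.en_eq]
      ring
    · have c0 : c x = 0 := image_eq_zero_of_notMem_tsupport hx
      have hev : c =ᶠ[𝓝 x] fun _ => 0 := notMem_tsupport_iff_eventuallyEq.1 hx
      have hev2 : (fun y => c y * S.om y) =ᶠ[𝓝 x] fun _ => 0 := by
        filter_upwards [hev] with y hy
        rw [hy, zero_mul]
      have d1 : ∀ j, D j (fun y => c y * S.om y) x = 0 := fun j => by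
        rw [D_congr_nhds hev2, D_const]
      have hev3 : ∀ j, D j (fun y => c y * S.om y) =ᶠ[𝓝 x] fun _ => 0 := by
        intro j
        filter_upwards [eventually_eventually_nhds.2 hev2] with y hy
        have : (fun y => c y * S.om y) =ᶠ[𝓝 y] fun _ => 0 := hy
        rw [D_congr_nhds this, D_const]
      have d2 : ∀ i j, D i (D j (fun y => c y * S.om y)) x = 0 := fun i j => by
        rw [D_congr_nhds (hev3 j), D_const]
      simp only [c0, d1, d2, zero_mul, mul_zero, Finset.sum_const_zero, add_zero, sub_zero,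
        zero_add]
      have := hc.nonneg' x
      positivity
  have j1 := i2.const_mul (11 / 10 + κ)
  have j2 := i1.const_mul (87 / 100 - κ)
  have j3 := i4.const_mul (3 * κ)
  have h0 : (0 : ℝ) ≤ ∫ x, ((11 / 10 + κ) * (c x * S.om x * dvg S.U F x ^ 2 * S.rho x)
      + c x * S.en η η x * S.rho x
      - (87 / 100 - κ) * (c x * S.om x * (∑ j, F j x ^ 2) * S.rho x)
      + 3 * κ * (c' x * S.om x * (∑ j, F j x ^ 2) * S.rho x)) := by
    rw [← hB]
    refine integral_mono ?_ (((j1.add i3).sub j2).add j3) hpt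
    have ht := integral_dvg_int (Ω := fun x => c x * S.om x) (U := S.U) (F := F) hΩ S.U_contDiff hFs
    exact ht
  have e1 := integral_add ((j1.add i3).sub j2) j3
  have e2 := integral_sub (j1.add i3) j2
  have e3 := integral_add j1 i3
  simp only [Pi.add_apply, Pi.sub_apply] at e1 e2 e3
  rw [e1, e2, e3, integral_const_mul, integral_const_mul, integral_const_mul] at h0
  linarith

end Dat

end

end Vale.Agent.P262.H853
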