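import Vale.Agent.P262.H853.Calc

/-! P262, helper853: the weighted Bochner identity with a compactly supported weight. -/

namespace Vale.Agent.P262.H853

open MeasureTheory Filter Topology
open scoped ContDiff ENNReal
open Vale.Agent.P363.R.Sob

noncomputable section

variable {k : ℕ}

/-- divergence with respect to `exp (-U)` -/
def dvg (U : Eu k → ℝ) (F : Fin k → Eu k → ℝ) (x : Eu k) : ℝ :=
  ∑ i, (D i (F i) x - D i U x * F i x)

/-- the vector field whose divergence gives the Bochner identity -/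
def Zf (Ω U : Eu k → ℝ) (F : Fin k → Eu k → ℝ) (i : Fin k) (x : Eu k) : ℝ :=
  F i x * (Ω x * dvg U F x) - ∑ j, F j x * (Ω x * D j (F i) x) + ∑ j, D j Ω x * (F i x * F j x)

theorem alg (F U1 Ω1 : Fin k → ℝ) (DF Ω2 U2 : Fin k → Fin k → ℝ) (DDF : Fin k → Fin k → Fin k → ℝ)
    (hs : ∀ i j l, DDF i j l = DDF j i l) (Ω : ℝ) (dv : ℝ)
    (hdv : dv = ∑ i, (DF i i - U1 i * F i)) :
    ∑ i, ((DF i i * (Ω * dv) + F i * (Ω1 i * dv + Ω * ∑ j, (DDF i j j - (U2 i j * F j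
        + U1 j * DF i j))))
      - ∑ j, (DF i j * (Ω * DF j i) + F j * (Ω1 i * DF j i + Ω * DDF i j i))
      + ∑ j, (Ω2 i j * (F i * F j) + Ω1 j * (DF i i * F j + F i * DF i j))
      - U1 i * (F i * (Ω * dv) - ∑ j, F j * (Ω * DF j i) + ∑ j, Ω1 j * (F i * F j)))
    = Ω * dv ^ 2 - Ω * ∑ i, ∑ j, DF j i * DF i j - Ω * ∑ i, ∑ j, U2 i j * F i * F j
      + ∑ i, ∑ j, Ω2 i j * F i * F j + 2 * (dv * ∑ j, Ω1 j * F j) := by
  have a1 : ∑ i, DF i i * (Ω * dv) - ∑ i, U1 i * (F i * (Ω * dv)) = Ω * dv ^ 2 := by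
    rw [← Finset.sum_sub_distrib]
    rw [show Ω * dv ^ 2 = (∑ i, (DF i i - U1 i * F i)) * (Ω * dv) by rw [← hdv]; ring,
      Finset.sum_mul]
    exact Finset.sum_congr rfl fun i _ => by ring
  have a2 : ∑ i, F i * (Ω1 i * dv) = dv * ∑ j, Ω1 j * F j := by
    rw [Finset.mul_sum]; exact Finset.sum_congr rfl fun i _ => by ring
  have a3 : ∑ i, ∑ j, (Ω1 j * (DF i i * F j)) - ∑ i, ∑ j, U1 i * (Ω1 j * (F i * F j))
      = dv * ∑ j, Ω1 j * F j := by
    rw [hdv, Finset.sum_mul_sum, ← Finset.sum_sub_distrib]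
    refine Finset.sum_congr rfl fun i _ => ?_
    rw [← Finset.sum_sub_distrib]
    exact Finset.sum_congr rfl fun j _ => by ring
  have b1 : ∑ i, ∑ j, F i * (Ω * DDF i j j) = ∑ i, ∑ j, F j * (Ω * DDF i j i) := by
    rw [Finset.sum_comm]
    refine Finset.sum_congr rfl fun i _ => Finset.sum_congr rfl fun j _ => ?_
    rw [hs j i i]
  have b2 : ∑ i, ∑ j, F i * (Ω * (U1 j * DF i j)) = ∑ i, ∑ j, U1 i * (F j * (Ω * DF j i)) := by
    rw [Finset.sum_comm]
    exact Finset.sum_congr rfl fun i _ => Finset.sum_congr rfl fun j _ => by ring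
  have b3 : ∑ i, ∑ j, F j * (Ω1 i * DF j i) = ∑ i, ∑ j, Ω1 j * (F i * DF i j) := by
    rw [Finset.sum_comm]
    exact Finset.sum_congr rfl fun i _ => Finset.sum_congr rfl fun j _ => by ring
  have b4 : ∑ i, ∑ j, DF i j * (Ω * DF j i) = Ω * ∑ i, ∑ j, DF j i * DF i j := by
    simp only [Finset.mul_sum]
    exact Finset.sum_congr rfl fun i _ => Finset.sum_congr rfl fun j _ => by ring
  have b5 : ∑ i, ∑ j, F i * (Ω * (U2 i j * F j)) = Ω * ∑ i, ∑ j, U2 i j * F i * F j := by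
    simp only [Finset.mul_sum]
    exact Finset.sum_congr rfl fun i _ => Finset.sum_congr rfl fun j _ => by ring
  have b6 : ∑ i, ∑ j, Ω2 i j * (F i * F j) = ∑ i, ∑ j, Ω2 i j * F i * F j :=
    Finset.sum_congr rfl fun i _ => Finset.sum_congr rfl fun j _ => by ring
  have main : ∀ i, ((DF i i * (Ω * dv) + F i * (Ω1 i * dv + Ω * ∑ j, (DDF i j j - (U2 i j * F j
        + U1 j * DF i j))))
      - ∑ j, (DF i j * (Ω * DF j i) + F j * (Ω1 i * DF j i + Ω * DDF i j i))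
      + ∑ j, (Ω2 i j * (F i * F j) + Ω1 j * (DF i i * F j + F i * DF i j))
      - U1 i * (F i * (Ω * dv) - ∑ j, F j * (Ω * DF j i) + ∑ j, Ω1 j * (F i * F j)))
      = DF i i * (Ω * dv) - U1 i * (F i * (Ω * dv)) + F i * (Ω1 i * dv)
        + ∑ j, F i * (Ω * DDF i j j) - ∑ j, F i * (Ω * (U2 i j * F j))
        - ∑ j, F i * (Ω * (U1 j * DF i j)) - ∑ j, DF i j * (Ω * DF j i)
        - ∑ j, F j * (Ω1 i * DF j i) - ∑ j, F j * (Ω * DDF i j i)
        + ∑ j, Ω2 i j * (F i * F j) + ∑ j, Ω1 j * (DF i i * F j) + ∑ j, Ω1 j * (F i * DF i j)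
        + ∑ j, U1 i * (F j * (Ω * DF j i)) - ∑ j, U1 i * (Ω1 j * (F i * F j)) := by
    intro i
    simp only [mul_sub, mul_add, Finset.sum_sub_distrib, Finset.sum_add_distrib, Finset.mul_sum]
    ring
  rw [Finset.sum_congr rfl fun i _ => main i]
  simp only [Finset.sum_sub_distrib, Finset.sum_add_distrib]
  linarith [a1, a2, a3, b1, b2, b3, b4, b5, b6]

variable {Ω U : Eu k → ℝ} {F : Fin k → Eu k → ℝ}

theorem dvg_contDiff (hU : ContDiff ℝ ∞ U) (hF : ∀ i, ContDiff ℝ ∞ (F i)) :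
    ContDiff ℝ ∞ (dvg U F) :=
  ContDiff.sum fun i _ => (D_contDiff (hF i) i).sub ((D_contDiff hU i).mul (hF i))

theorem D_dvg (hU : ContDiff ℝ ∞ U) (hF : ∀ i, ContDiff ℝ ∞ (F i)) (i : Fin k) (x : Eu k) :
    D i (dvg U F) x = ∑ j, (D i (D j (F j)) x - (D i (D j U) x * F j x
      + D j U x * D i (F j) x)) := by
  unfold dvg
  rw [D_sum _ fun j => (D_contDiff (hF j) j).sub ((D_contDiff hU j).mul (hF j))]
  refine Finset.sum_congr rfl fun j _ => ?_
  rw [D_sub (D_contDiff (hF j) j) ((D_contDiff hU j).mul (hF j)),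
    D_mul (D_contDiff hU j) (hF j)]

theorem D_Zf (hΩ : ContDiff ℝ ∞ Ω) (hU : ContDiff ℝ ∞ U) (hF : ∀ i, ContDiff ℝ ∞ (F i))
    (i : Fin k) (x : Eu k) :
    D i (Zf Ω U F i) x = (D i (F i) x * (Ω x * dvg U F x) + F i x * (D i Ω x * dvg U F x
        + Ω x * ∑ j, (D i (D j (F j)) x - (D i (D j U) x * F j x + D j U x * D i (F j) x))))
      - ∑ j, (D i (F j) x * (Ω x * D j (F i) x) + F j x * (D i Ω x * D j (F i) x
        + Ω x * D i (D j (F i)) x))
      + ∑ j, (D i (D j Ω) x * (F i x * F j x) + D j Ω x * (D i (F i) x * F j x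
        + F i x * D i (F j) x)) := by
  have hd := dvg_contDiff hU hF
  have h1 : ContDiff ℝ ∞ (fun x => F i x * (Ω x * dvg U F x)) := (hF i).mul (hΩ.mul hd)
  have h2 : ∀ j, ContDiff ℝ ∞ (fun x => F j x * (Ω x * D j (F i) x)) := fun j =>
    (hF j).mul (hΩ.mul (D_contDiff (hF i) j))
  have h3 : ∀ j, ContDiff ℝ ∞ (fun x => D j Ω x * (F i x * F j x)) := fun j =>
    (D_contDiff hΩ j).mul ((hF i).mul (hF j))
  have h2' : ContDiff ℝ ∞ (fun x => ∑ j, F j x * (Ω x * D j (F i) x)) :=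
    ContDiff.sum fun j _ => h2 j
  have h3' : ContDiff ℝ ∞ (fun x => ∑ j, D j Ω x * (F i x * F j x)) :=
    ContDiff.sum fun j _ => h3 j
  have e0 : D i (Zf Ω U F i) x = D i (fun x => F i x * (Ω x * dvg U F x)) x
      - D i (fun x => ∑ j, F j x * (Ω x * D j (F i) x)) x
      + D i (fun x => ∑ j, D j Ω x * (F i x * F j x)) x := by
    rw [← D_sub h1 h2', ← D_add (h1.sub h2') h3']; rfl
  rw [e0, D_sum _ h2, D_sum _ h3, D_mul (hF i) (hΩ.mul hd), D_mul hΩ hd, D_dvg hU hF]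
  congr 1
  · congr 1
    refine Finset.sum_congr rfl fun j _ => ?_
    rw [D_mul (hF j) (hΩ.mul (D_contDiff (hF i) j)), D_mul hΩ (D_contDiff (hF i) j)]
  · refine Finset.sum_congr rfl fun j _ => ?_
    rw [D_mul (D_contDiff hΩ j) ((hF i).mul (hF j)), D_mul (hF i) (hF j)]

/-- pointwise Bochner identity -/
theorem bochner_pt (hΩ : ContDiff ℝ ∞ Ω) (hU : ContDiff ℝ ∞ U) (hF : ∀ i, ContDiff ℝ ∞ (F i))
    (x : Eu k) :
    dvg U (Zf Ω U F) x = Ω x * dvg U F x ^ 2 - Ω x * ∑ i, ∑ j, D j (F i) x * D i (F j) x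
      - Ω x * ∑ i, ∑ j, D i (D j U) x * F i x * F j x
      + ∑ i, ∑ j, D i (D j Ω) x * F i x * F j x
      + 2 * (dvg U F x * ∑ j, D j Ω x * F j x) := by
  rw [← alg (fun i => F i x) (fun i => D i U x) (fun i => D i Ω x) (fun i j => D i (F j) x)
    (fun i j => D i (D j Ω) x) (fun i j => D i (D j U) x) (fun i j l => D i (D j (F l)) x)
    (fun i j l => D_comm (hF l) i j x) (Ω x) (dvg U F x) rfl]
  unfold dvg
  refine Finset.sum_congr rfl fun i _ => ?_
  have := D_Zf hΩ hU hF i x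
  unfold dvg at this
  rw [this]
  rfl

theorem test_Zf (hΩ : Test Ω) (hU : ContDiff ℝ ∞ U) (hF : ∀ i, ContDiff ℝ ∞ (F i)) (i : Fin k) :
    Test (Zf Ω U F i) := by
  have hd := dvg_contDiff hU hF
  have t1 : Test (fun x => F i x * (Ω x * dvg U F x)) := Test.mul' (hF i) (hΩ.mul hd)
  have t2 : Test (fun x => ∑ j, F j x * (Ω x * D j (F i) x)) :=
    Test.sum _ fun j => Test.mul' (hF j) (hΩ.mul (D_contDiff (hF i) j))
  have t3 : Test (fun x => ∑ j, D j Ω x * (F i x * F j x)) :=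
    Test.sum _ fun j => (Test.D hΩ j).mul ((hF i).mul (hF j))
  exact Test.add (Test.sub t1 t2) t3

/-- integral of a divergence -/
theorem integral_dvg {Z : Fin k → Eu k → ℝ} (hZ : ∀ i, Test (Z i)) (hU : ContDiff ℝ ∞ U) :
    ∫ x, dvg U Z x * Real.exp (- U x) = 0 := by
  have hE : ContDiff ℝ ∞ (fun x => Real.exp (- U x)) := hU.neg.exp
  have h1 : ∀ i, Test (fun x => Z i x * Real.exp (- U x)) := fun i => (hZ i).mul hE
  have h2 : ∀ x, dvg U Z x * Real.exp (- U x) = ∑ i, D i (fun x => Z i x * Real.exp (- U x)) x := by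
    intro x
    unfold dvg
    rw [Finset.sum_mul]
    refine Finset.sum_congr rfl fun i _ => ?_
    rw [D_mul (hZ i).1 hE, D_exp hU.neg, D_neg]
    ring
  simp only [h2]
  rw [integral_finset_sum _ fun i _ => Test.integrable (Test.D (h1 i) i)]
  exact Finset.sum_eq_zero fun i _ => integral_D_eq_zero (h1 i) i

/-- the integrated Bochner identity -/
theorem bochner (hΩ : Test Ω) (hU : ContDiff ℝ ∞ U) (hF : ∀ i, ContDiff ℝ ∞ (F i)) :
    ∫ x, (Ω x * dvg U F x ^ 2 - Ω x * ∑ i, ∑ j, D j (F i) x * D i (F j) x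
      - Ω x * ∑ i, ∑ j, D i (D j U) x * F i x * F j x
      + ∑ i, ∑ j, D i (D j Ω) x * F i x * F j x
      + 2 * (dvg U F x * ∑ j, D j Ω x * F j x)) * Real.exp (- U x) = 0 := by
  rw [← integral_dvg (test_Zf hΩ hU hF) hU]
  exact integral_congr_ae (Eventually.of_forall fun x => by simp only [bochner_pt hΩ.1 hU hF x])

end

end Vale.Agent.P262.H853
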