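import Mathlib
import Vale.Agent.P363.R.Sob.LocApprox
import Vale.Agent.P363.R.Sob.S14
import Vale.Agent.P363.R.Sob.Density

/-! P262, helper853: coordinate calculus on Euclidean space (for step 4 of note 6792). -/

namespace Vale.Agent.P262.H853

open MeasureTheory Filter Topology
open scoped ContDiff ENNReal
open Vale.Agent.P363.R.Sob

noncomputable section

variable {k : ℕ}

/-- Euclidean space -/
abbrev Eu (k : ℕ) := EuclideanSpace ℝ (Fin k)

/-- the standard basis vector -/
def e (i : Fin k) : Eu k := EuclideanSpace.single i (1 : ℝ)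

/-- partial derivative -/
def D (i : Fin k) (f : Eu k → ℝ) (x : Eu k) : ℝ := fderiv ℝ f x (e i)

variable {f g : Eu k → ℝ} {x : Eu k} {i j : Fin k}

theorem D_contDiff (hf : ContDiff ℝ ∞ f) (i : Fin k) : ContDiff ℝ ∞ (D i f) :=
  (hf.fderiv_right (by simp)).clm_apply contDiff_const

theorem dif (hf : ContDiff ℝ ∞ f) : DifferentiableAt ℝ f x := hf.differentiable (by simp) x

theorem D_add (hf : ContDiff ℝ ∞ f) (hg : ContDiff ℝ ∞ g) :
    D i (fun y => f y + g y) x = D i f x + D i g x := by
  simp only [D]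
  rw [fderiv_fun_add (dif hf) (dif hg)]; rfl

theorem D_sub (hf : ContDiff ℝ ∞ f) (hg : ContDiff ℝ ∞ g) :
    D i (fun y => f y - g y) x = D i f x - D i g x := by
  simp only [D]
  rw [fderiv_fun_sub (dif hf) (dif hg)]; rfl

theorem D_neg : D i (fun y => - f y) x = - D i f x := by
  simp only [D]
  rw [fderiv_fun_neg]; rfl

theorem D_mul (hf : ContDiff ℝ ∞ f) (hg : ContDiff ℝ ∞ g) :
    D i (fun y => f y * g y) x = D i f x * g x + f x * D i g x := by
  simp only [D]
  rw [fderiv_fun_mul (dif hf) (dif hg)]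
  simp only [add_apply, smul_apply, smul_eq_mul]
  ring

theorem D_const (c : ℝ) : D i (fun _ => c) x = 0 := by
  simp [D]

theorem D_sum {ι : Type*} (s : Finset ι) {f : ι → Eu k → ℝ} (hf : ∀ a, ContDiff ℝ ∞ (f a)) :
    D i (fun y => ∑ a ∈ s, f a y) x = ∑ a ∈ s, D i (f a) x := by
  simp only [D]
  rw [fderiv_fun_sum (fun a _ => dif (hf a))]
  simp

theorem D_comm (hf : ContDiff ℝ ∞ f) (i j : Fin k) (x : Eu k) :
    D i (D j f) x = D j (D i f) x := by
  have h2 : DifferentiableAt ℝ (fderiv ℝ f) x :=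
    (hf.fderiv_right (m := ∞) (by simp)).differentiable (by simp) x
  have key : ∀ a b : Fin k, D a (D b f) x = fderiv ℝ (fderiv ℝ f) x (e a) (e b) := by
    intro a b
    show fderiv ℝ (fun y => fderiv ℝ f y (e b)) x (e a) = _
    rw [fderiv_clm_apply h2 (differentiableAt_const _)]
    simp
  rw [key, key]
  have h3 : ContDiffAt ℝ ∞ f x := hf.contDiffAt
  have := ContDiffAt.isSymmSndFDerivAt h3 (by simp only [minSmoothness_of_isRCLikeNormedField]; exact ENat.LEInfty.out)
  exact this (e i) (e j)

theorem D_exp (hf : ContDiff ℝ ∞ f) :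
    D i (fun y => Real.exp (f y)) x = Real.exp (f x) * D i f x := by
  simp only [D]
  rw [fderiv_exp (dif hf)]
  rfl

theorem D_congr_nhds (h : f =ᶠ[𝓝 x] g) : D i f x = D i g x := by
  simp only [D]; rw [h.fderiv_eq]

theorem D_eq_zero_of_notMem_tsupport (h : x ∉ tsupport f) : D i f x = 0 := by
  have : f =ᶠ[𝓝 x] fun _ => 0 := notMem_tsupport_iff_eventuallyEq.1 h
  rw [D_congr_nhds this, D_const]

/-- the integral of a partial derivative of a test function vanishes -/
theorem integral_D_eq_zero (hf : Test f) (i : Fin k) : ∫ x, D i f x = 0 := by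
  have h := integral_mul_fderiv_eq_neg_fderiv_mul_of_integrable (μ := (volume : Measure (Eu k)))
    (f := fun _ => (1 : ℝ)) (g := f) (v := e i) ?_ ?_ ?_ ?_ ?_
  · simp only [D]; simpa using h
  · simp
  · simpa using (hf.fderiv (e i)).continuous.integrable_of_hasCompactSupport (hf.fderiv (e i)).2
  · simpa using hf.continuous.integrable_of_hasCompactSupport hf.2
  · intro x; simp
  · exact fun x _ => dif hf.1

theorem Test.integrable {f : Eu k → ℝ} (hf : Test f) : Integrable f :=
  hf.continuous.integrable_of_hasCompactSupport hf.2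

theorem Test.sum {ι : Type*} (s : Finset ι) {f : ι → Eu k → ℝ} (hf : ∀ a, Test (f a)) :
    Test (fun y => ∑ a ∈ s, f a y) := by
  refine ⟨ContDiff.sum fun a _ => (hf a).1, ?_⟩
  classical
  induction s using Finset.induction_on with
  | empty =>
    simp only [Finset.sum_empty]
    exact HasCompactSupport.zero
  | insert a s ha ih =>
    simp only [Finset.sum_insert ha]
    exact (hf a).2.add ih

theorem Test.D {f : Eu k → ℝ} (hf : Test f) (i : Fin k) : Test (D i f) := hf.fderiv (e i)

theorem Test.add {f g : Eu k → ℝ} (hf : Test f) (hg : Test g) : Test (fun y => f y + g y) :=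
  ⟨hf.1.add hg.1, hf.2.add hg.2⟩

theorem Test.sub {f g : Eu k → ℝ} (hf : Test f) (hg : Test g) : Test (fun y => f y - g y) := by
  refine ⟨hf.1.sub hg.1, ?_⟩
  simp only [sub_eq_add_neg]
  exact hf.2.add hg.2.neg

end

end Vale.Agent.P262.H853
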