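import Vale.Agent.P262.H853.BoLoc

/-! P262, helper853: cut-off functions. -/

namespace Vale.Agent.P262.H853

open MeasureTheory Filter Topology
open scoped ContDiff ENNReal
open Vale.Agent.P363.R.Sob

noncomputable section

variable {k : ℕ}

theorem D_scale {f : Eu k → ℝ} (hf : ContDiff ℝ ∞ f) (r : ℝ) (i : Fin k) (x : Eu k) :
    D i (fun y => f (r • y)) x = r * D i f (r • x) := by
  have hd : HasFDerivAt f (fderiv ℝ f (r • x)) (r • x) := (dif hf).hasFDerivAt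
  have h2 : HasFDerivAt (fun y : Eu k => r • y) (r • ContinuousLinearMap.id ℝ (Eu k)) x :=
    (r • ContinuousLinearMap.id ℝ (Eu k)).hasFDerivAt
  have h3 := hd.comp x h2
  have e0 : (fun y => f (r • y)) = f ∘ (fun y : Eu k => r • y) := rfl
  simp only [D]
  rw [e0, h3.fderiv]
  simp

/-- the basic bump as a function -/
def h0 (x : Eu k) : ℝ := (cut0 : ContDiffBump (0 : Eu k)) x

theorem h0_test : Test (h0 : Eu k → ℝ) :=
  ⟨(cut0 : ContDiffBump (0 : Eu k)).contDiff, (cut0 : ContDiffBump (0 : Eu k)).hasCompactSupport⟩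

theorem cut_eq (n : ℕ) : (cut n : Eu k → ℝ) = fun x => h0 (((n : ℝ) + 1)⁻¹ • x) := rfl

theorem D_cut (n : ℕ) (i : Fin k) (x : Eu k) :
    D i (cut n) x = ((n : ℝ) + 1)⁻¹ * D i h0 (((n : ℝ) + 1)⁻¹ • x) := by
  rw [cut_eq, D_scale h0_test.1]

theorem DD_cut (n : ℕ) (i j : Fin k) (x : Eu k) :
    D i (D j (cut n)) x
      = ((n : ℝ) + 1)⁻¹ * (((n : ℝ) + 1)⁻¹ * D i (D j h0) (((n : ℝ) + 1)⁻¹ • x)) := by
  have e1 : D j (cut n : Eu k → ℝ)
      = fun x => ((n : ℝ) + 1)⁻¹ * D j h0 (((n : ℝ) + 1)⁻¹ • x) := by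
    ext y; exact D_cut n j y
  have hs : ContDiff ℝ ∞ (fun x : Eu k => D j h0 (((n : ℝ) + 1)⁻¹ • x)) :=
    (D_contDiff h0_test.1 j).comp
      (by fun_prop : ContDiff ℝ ∞ fun x : Eu k => ((n : ℝ) + 1)⁻¹ • x)
  rw [e1, D_mul contDiff_const hs, D_const, D_scale (D_contDiff h0_test.1 j)]
  ring

theorem exists_D_bound : ∃ C : ℝ, 0 ≤ C ∧ ∀ (n : ℕ) (x : Eu k),
    ∑ j, D j (cut n) x ^ 2 ≤ C * ((n : ℝ) + 1)⁻¹ ∧
    ∑ i, ∑ j, |D i (D j (cut n)) x| ≤ C * ((n : ℝ) + 1)⁻¹ := by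
  have h1 : ∀ j : Fin k, ∃ C, ∀ x, ‖D j (h0 : Eu k → ℝ) x‖ ≤ C := fun j =>
    (Test.D h0_test j).2.exists_bound_of_continuous (Test.D h0_test j).1.continuous
  have h2 : ∀ i j : Fin k, ∃ C, ∀ x, ‖D i (D j (h0 : Eu k → ℝ)) x‖ ≤ C := fun i j =>
    (Test.D (Test.D h0_test j) i).2.exists_bound_of_continuous
      (Test.D (Test.D h0_test j) i).1.continuous
  choose C1 hC1 using h1
  choose C2 hC2 using h2
  have n1 : ∀ j, 0 ≤ C1 j := fun j => (norm_nonneg _).trans (hC1 j 0)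
  have n2 : ∀ i j, 0 ≤ C2 i j := fun i j => (norm_nonneg _).trans (hC2 i j 0)
  have m1 : 0 ≤ ∑ j, C1 j ^ 2 := Finset.sum_nonneg fun j _ => sq_nonneg _
  have m2 : 0 ≤ ∑ i, ∑ j, C2 i j := Finset.sum_nonneg fun i _ => Finset.sum_nonneg fun j _ => n2 i j
  refine ⟨∑ j, C1 j ^ 2 + ∑ i, ∑ j, C2 i j, by positivity, fun n x => ?_⟩
  set r : ℝ := ((n : ℝ) + 1)⁻¹ with hr
  have hr0 : 0 < r := by positivity
  have hr1 : r ≤ 1 := by
    rw [hr]
    apply inv_le_one_of_one_le₀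
    have : (0 : ℝ) ≤ n := Nat.cast_nonneg n
    linarith
  constructor
  · have e1 : ∑ j, D j (cut n) x ^ 2 ≤ ∑ j, r * C1 j ^ 2 := by
      refine Finset.sum_le_sum fun j _ => ?_
      rw [D_cut, mul_pow]
      have a1 : D j h0 (r • x) ^ 2 ≤ C1 j ^ 2 := by
        rw [← sq_abs]
        exact pow_le_pow_left₀ (abs_nonneg _) (hC1 j _) 2
      have a2 : r ^ 2 ≤ r := by nlinarith
      exact mul_le_mul a2 a1 (sq_nonneg _) hr0.le
    rw [← Finset.mul_sum] at e1
    refine e1.trans ?_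
    rw [mul_comm]
    exact mul_le_mul_of_nonneg_right (by linarith) hr0.le
  · have e1 : ∑ i, ∑ j, |D i (D j (cut n)) x| ≤ ∑ i, ∑ j, r * C2 i j := by
      refine Finset.sum_le_sum fun i _ => Finset.sum_le_sum fun j _ => ?_
      rw [DD_cut, abs_mul, abs_mul, abs_of_pos hr0]
      have a1 : |D i (D j h0) (r • x)| ≤ C2 i j := hC2 i j _
      have a2 : r * |D i (D j h0) (r • x)| ≤ 1 * C2 i j :=
        mul_le_mul hr1 a1 (abs_nonneg _) (by norm_num)
      rw [one_mul] at a2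
      exact mul_le_mul_of_nonneg_left a2 hr0.le
    simp only [← Finset.mul_sum] at e1
    refine e1.trans ?_
    rw [mul_comm]
    exact mul_le_mul_of_nonneg_right (by linarith) hr0.le

theorem cut_eq_zero (n : ℕ) (x : Eu k) (h : 2 * ((n : ℝ) + 1) ≤ ‖x‖) : cut n x = 0 := by
  apply ContDiffBump.zero_of_le_dist
  rw [dist_zero_right, norm_smul, norm_inv]
  have h1 : (0 : ℝ) < (n : ℝ) + 1 := by positivity
  rw [Real.norm_of_nonneg h1.le]
  show (2 : ℝ) ≤ _
  rw [← div_eq_inv_mul, le_div_iff₀ h1]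
  exact h

theorem tsupport_cut (n : ℕ) {x : Eu k} (hx : x ∈ tsupport (cut n : Eu k → ℝ)) :
    ‖x‖ ≤ 2 * ((n : ℝ) + 1) := by
  have h1 : tsupport (cut n : Eu k → ℝ) ⊆ Metric.closedBall 0 (2 * ((n : ℝ) + 1)) := by
    refine closure_minimal ?_ Metric.isClosed_closedBall
    intro y hy
    rw [Metric.mem_closedBall, dist_zero_right]
    by_contra hcon
    push Not at hcon
    exact hy (cut_eq_zero n y hcon.le)
  simpa using h1 hx

/-- existence of good cut-offs -/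
theorem exists_cut {κ : ℝ} (hκ : 0 < κ) (m : ℝ) : ∃ (c c' χ : Eu k → ℝ) (R : ℝ), Cut κ c c' ∧
    (∀ x, ‖x‖ ≤ m → c x = 1) ∧ (∀ x, R ≤ ‖x‖ → c' x = 0) ∧ Test χ ∧
    (∀ y, ‖y‖ < R + 3 → χ y = 1) := by
  obtain ⟨C, hC, hb⟩ := exists_D_bound (k := k)
  have hlim : Tendsto (fun n : ℕ => (4 * C) * ((n : ℝ) + 1)⁻¹) atTop (𝓝 ((4 * C) * 0)) := by
    refine Tendsto.const_mul _ ?_
    simpa using tendsto_one_div_add_atTop_nhds_zero_nat (𝕜 := ℝ)
  rw [mul_zero] at hlim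
  have h1 : ∀ᶠ n : ℕ in atTop, (4 * C) * ((n : ℝ) + 1)⁻¹ < min κ (κ ^ 2) :=
    hlim.eventually (gt_mem_nhds (lt_min hκ (by positivity)))
  have h2 : ∀ᶠ n : ℕ in atTop, m ≤ (n : ℝ) + 1 := by
    filter_upwards [eventually_ge_atTop ⌈m⌉₊] with n hn
    have : m ≤ (⌈m⌉₊ : ℝ) := Nat.le_ceil m
    have h3 : ((⌈m⌉₊ : ℕ) : ℝ) ≤ n := by exact_mod_cast hn
    linarith
  obtain ⟨n, hn1, hn2⟩ := (h1.and h2).exists
  obtain ⟨C1, hC1⟩ : ∃ C1 : ℕ, 2 * ((n : ℝ) + 1) ≤ (C1 : ℝ) + 1 :=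
    ⟨2 * n + 2, by push_cast; linarith⟩
  obtain ⟨C2, hC2⟩ : ∃ C2 : ℕ, 2 * ((C1 : ℝ) + 1) + 3 ≤ (C2 : ℝ) + 1 :=
    ⟨2 * C1 + 5, by push_cast; linarith⟩
  set f : Eu k → ℝ := cut n with hf
  have hft : Test f := cut_test n
  have hd1 : ∀ j x, D j (fun y => f y * f y) x = 2 * (f x * D j f x) := fun j x => by
    rw [D_mul hft.1 hft.1]; ring
  have hd2 : ∀ i j x, D i (D j (fun y => f y * f y)) x
      = 2 * (D i f x * D j f x) + 2 * (f x * D i (D j f) x) := fun i j x => by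
    have e : D j (fun y => f y * f y) = fun x => 2 * (f x * D j f x) := by
      ext y; exact hd1 j y
    rw [e, D_mul contDiff_const (hft.1.mul (D_contDiff hft.1 j)), D_const,
      D_mul hft.1 (D_contDiff hft.1 j)]
    ring
  refine ⟨fun x => f x * f x, cut C1, cut C2, 2 * ((C1 : ℝ) + 1), ?_, ?_, ?_, cut_test _, ?_⟩
  · refine ⟨hft.mul hft.1, fun x => mul_self_nonneg _, fun x => ?_, cut_test _, cut_nonneg _,
      cut_le_one _, fun x hx => ?_, fun x v => ?_, fun x v => ?_⟩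
    · have a1 := cut_nonneg n x
      have a2 := cut_le_one n x
      exact mul_le_one₀ a2 a1 a2
    · apply cut_eq_one
      have : x ∈ tsupport f := by
        have hsub : tsupport (fun x => f x * f x) ⊆ tsupport f := tsupport_mul_subset_left
        exact hsub hx
      exact (tsupport_cut n this).trans hC1
    · simp only [hd1]
      have e1 : ∑ j, 2 * (f x * D j f x) * v j = 2 * f x * ∑ j, D j f x * v j := by
        rw [Finset.mul_sum]; exact Finset.sum_congr rfl fun j _ => by ring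
      rw [e1, mul_pow]
      have e2 := Finset.sum_mul_sq_le_sq_mul_sq Finset.univ (fun j => D j f x) v
      have e3 := (hb n x).1
      have e4 : 4 * ∑ j, D j f x ^ 2 ≤ κ ^ 2 := by
        have := hn1.le.trans (min_le_right _ _)
        linarith
      have hv0 : 0 ≤ ∑ j, v j ^ 2 := Finset.sum_nonneg fun j _ => sq_nonneg _
      calc (2 * f x) ^ 2 * (∑ j, D j f x * v j) ^ 2
          ≤ (2 * f x) ^ 2 * ((∑ j, D j f x ^ 2) * ∑ j, v j ^ 2) :=
            mul_le_mul_of_nonneg_left e2 (sq_nonneg _)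
        _ = (4 * ∑ j, D j f x ^ 2) * (f x * f x * ∑ j, v j ^ 2) := by ring
        _ ≤ κ ^ 2 * (f x * f x * ∑ j, v j ^ 2) :=
            mul_le_mul_of_nonneg_right e4 (mul_nonneg (mul_self_nonneg _) hv0)
    · simp only [hd2]
      have e1 : ∑ i, ∑ j, (2 * (D i f x * D j f x) + 2 * (f x * D i (D j f) x)) * v i * v j
          = 2 * (∑ j, D j f x * v j) ^ 2 + 2 * f x * ∑ i, ∑ j, D i (D j f) x * v i * v j := by
        rw [sq, Finset.sum_mul_sum, Finset.mul_sum, Finset.mul_sum, ← Finset.sum_add_distrib]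
        refine Finset.sum_congr rfl fun i _ => ?_
        rw [Finset.mul_sum, Finset.mul_sum, ← Finset.sum_add_distrib]
        exact Finset.sum_congr rfl fun j _ => by ring
      rw [e1]
      have e2 := Finset.sum_mul_sq_le_sq_mul_sq Finset.univ (fun j => D j f x) v
      have e3 := hb n x
      have hv0 : 0 ≤ ∑ j, v j ^ 2 := Finset.sum_nonneg fun j _ => sq_nonneg _
      have e5 : ∑ i, ∑ j, D i (D j f) x * v i * v j
          ≤ (∑ i, ∑ j, |D i (D j f) x|) * ∑ j, v j ^ 2 := by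
        rw [Finset.sum_mul]
        refine Finset.sum_le_sum fun i _ => ?_
        rw [Finset.sum_mul]
        refine Finset.sum_le_sum fun j _ => ?_
        have a1 : |v i * v j| ≤ ∑ l, v l ^ 2 := by
          have b1 : v i ^ 2 ≤ ∑ l, v l ^ 2 :=
            Finset.single_le_sum (f := fun l => v l ^ 2) (fun l _ => sq_nonneg _) (Finset.mem_univ i)
          have b2 : v j ^ 2 ≤ ∑ l, v l ^ 2 :=
            Finset.single_le_sum (f := fun l => v l ^ 2) (fun l _ => sq_nonneg _) (Finset.mem_univ j)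
          rw [abs_mul]
          nlinarith [sq_nonneg (|v i| - |v j|), sq_abs (v i), sq_abs (v j)]
        calc D i (D j f) x * v i * v j = D i (D j f) x * (v i * v j) := by ring
          _ ≤ |D i (D j f) x * (v i * v j)| := le_abs_self _
          _ = |D i (D j f) x| * |v i * v j| := abs_mul _ _
          _ ≤ _ := mul_le_mul_of_nonneg_left a1 (abs_nonneg _)
      have a1 := cut_nonneg n x
      have a2 := cut_le_one n x
      have m0 : 0 ≤ ∑ i, ∑ j, |D i (D j f) x| := Finset.sum_nonneg fun i _ =>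
        Finset.sum_nonneg fun j _ => abs_nonneg _
      have e6 : 2 * f x * ∑ i, ∑ j, D i (D j f) x * v i * v j
          ≤ 2 * ((∑ i, ∑ j, |D i (D j f) x|) * ∑ j, v j ^ 2) := by
        calc 2 * f x * ∑ i, ∑ j, D i (D j f) x * v i * v j
            ≤ 2 * f x * ((∑ i, ∑ j, |D i (D j f) x|) * ∑ j, v j ^ 2) :=
              mul_le_mul_of_nonneg_left e5 (by positivity)
          _ ≤ 2 * 1 * ((∑ i, ∑ j, |D i (D j f) x|) * ∑ j, v j ^ 2) :=
              mul_le_mul_of_nonneg_right (by linarith) (mul_nonneg m0 hv0)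
          _ = _ := by ring
      have e7 : 2 * ∑ j, D j f x ^ 2 + 2 * ∑ i, ∑ j, |D i (D j f) x| ≤ κ := by
        have h3 := hn1.le.trans (min_le_left _ _)
        linarith [e3.1, e3.2]
      calc 2 * (∑ j, D j f x * v j) ^ 2 + 2 * f x * ∑ i, ∑ j, D i (D j f) x * v i * v j
          ≤ 2 * ((∑ j, D j f x ^ 2) * ∑ j, v j ^ 2)
            + 2 * ((∑ i, ∑ j, |D i (D j f) x|) * ∑ j, v j ^ 2) := by linarith
        _ = (2 * ∑ j, D j f x ^ 2 + 2 * ∑ i, ∑ j, |D i (D j f) x|) * ∑ j, v j ^ 2 := by ring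
        _ ≤ κ * ∑ j, v j ^ 2 := mul_le_mul_of_nonneg_right e7 hv0
  · intro x hx
    show cut n x * cut n x = 1
    rw [cut_eq_one n x (hx.trans hn2), one_mul]
  · intro x hx
    exact cut_eq_zero C1 x hx
  · intro y hy
    exact cut_eq_one C2 y (hy.le.trans hC2)

end

end Vale.Agent.P262.H853
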