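import Vale.Agent.P262.H853.Calc

/-! P262, helper853: abstract mollifier family (properties used in step 4). -/

namespace Vale.Agent.P262.H853

open MeasureTheory Filter Topology
open scoped ContDiff ENNReal
open Vale.Agent.P363.R.Sob

noncomputable section

/-- a mollifier family -/
structure Fam (k : ℕ) where
  M : ℝ → (Eu k → ℝ) → Eu k → ℝ
  K : ℝ → Eu k → Eu k → ℝ
  M_test : ∀ {t : ℝ} {f : Eu k → ℝ}, 0 < t → Test f → Test (M t f)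
  D_M : ∀ {t : ℝ} {f : Eu k → ℝ} (i : Fin k) (x : Eu k), 0 < t → Test f →
    D i (M t f) x = M t (D i f) x
  ker : ∀ {t : ℝ} {f : Eu k → ℝ} (x : Eu k), 0 < t → Test f → M t f x = ∫ y, K t x y * f y
  K_test : ∀ {t : ℝ} (x : Eu k), 0 < t → Test (K t x)
  K_supp : ∀ {t : ℝ} (x y : Eu k), 0 < t → 2 * t ≤ ‖y - x‖ → K t x y = 0
  K_cont : ∀ {t : ℝ}, 0 < t → Continuous (fun p : Eu k × Eu k => K t p.1 p.2)
  DK_cont : ∀ {t : ℝ} (i : Fin k), 0 < t → Continuous (fun p : Eu k × Eu k => D i (K t p.1) p.2)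
  bd_id : ∃ C : ℝ, 0 ≤ C ∧ ∀ (t : ℝ) (f : Eu k → ℝ), 0 < t → t ≤ 1 → Test f →
    ∫ x, (M t f x - f x) ^ 2 ≤ C * t ^ 2 * ∑ i, ∫ x, D i f x ^ 2
  bd_M : ∃ C : ℝ, 0 ≤ C ∧ ∀ (t : ℝ) (f : Eu k → ℝ), 0 < t → t ≤ 1 → Test f →
    ∫ x, M t f x ^ 2 ≤ C * ∫ x, f x ^ 2
  comm0 : ∀ q : Eu k → ℝ, Test q → ∃ C : ℝ, 0 ≤ C ∧ ∀ (t : ℝ) (f : Eu k → ℝ), 0 < t → t ≤ 1 →
    Test f → ∫ x, (q x * M t f x - M t (fun y => q y * f y) x) ^ 2 ≤ C * t ^ 2 * ∫ x, f x ^ 2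
  comm1 : ∀ (q : Eu k → ℝ) (i : Fin k), Test q → ∃ C : ℝ, 0 ≤ C ∧ ∀ (t : ℝ) (f : Eu k → ℝ),
    0 < t → t ≤ 1 → Test f →
    ∫ x, D i (fun y => q y * M t f y - M t (fun z => q z * f z) y) x ^ 2 ≤ C * ∫ x, f x ^ 2
  comm2 : ∀ (q : Eu k → ℝ) (i : Fin k), Test q → ∃ C : ℝ, 0 ≤ C ∧ ∀ (t : ℝ) (f : Eu k → ℝ),
    0 < t → t ≤ 1 → Test f →
    ∫ x, D i (fun y => q y * M t f y - M t (fun z => q z * f z) y) x ^ 2
      ≤ C * t ^ 2 * ((∫ x, f x ^ 2) + ∫ x, D i f x ^ 2)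

variable {k : ℕ} (A : Fam k) {t : ℝ} {f g : Eu k → ℝ} {x : Eu k}

theorem Test.mul2 {f g : Eu k → ℝ} (hf : Test f) (hg : ContDiff ℝ ∞ g) :
    Test (fun x => g x * f x) := Test.mul' hg hf

namespace Fam

theorem int1 (ht : 0 < t) (hf : ContDiff ℝ ∞ f) : Integrable (fun y => A.K t x y * f y) :=
  Test.integrable ((A.K_test x ht).mul hf)

theorem M_congr (ht : 0 < t) (hf : Test f) (hg : Test g)
    (h : ∀ y, ‖y - x‖ < 2 * t → f y = g y) : A.M t f x = A.M t g x := by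
  rw [A.ker x ht hf, A.ker x ht hg]
  refine integral_congr_ae (Eventually.of_forall fun y => ?_)
  rcases lt_or_ge ‖y - x‖ (2 * t) with h1 | h1
  · simp only [h y h1]
  · simp only [A.K_supp x y ht h1, zero_mul]

theorem M_sub (ht : 0 < t) (hf : Test f) (hg : Test g) :
    A.M t (fun y => f y - g y) x = A.M t f x - A.M t g x := by
  rw [A.ker x ht hf, A.ker x ht hg, A.ker x ht (Test.sub hf hg),
    ← integral_sub (A.int1 ht hf.1) (A.int1 ht hg.1)]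
  exact integral_congr_ae (Eventually.of_forall fun y => by ring)

theorem M_sum (ht : 0 < t) {ι : Type*} (s : Finset ι) {f : ι → Eu k → ℝ} (hf : ∀ i, Test (f i)) :
    A.M t (fun y => ∑ i ∈ s, f i y) x = ∑ i ∈ s, A.M t (f i) x := by
  rw [A.ker x ht (Test.sum s hf)]
  simp only [Finset.mul_sum]
  rw [integral_finsetSum _ fun i _ => A.int1 ht (hf i).1]
  exact Finset.sum_congr rfl fun i _ => (A.ker x ht (hf i)).symm

end Fam

end

end Vale.Agent.P262.H853
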