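import Vale.Agent.P262.H853.Fam
import Vale.Agent.P262.H847.Fr2

/-! P262, helper853: the mollifier family of helper847 satisfies the axioms of `Fam`. -/

namespace Vale.Agent.P262.H853

open MeasureTheory Filter Topology
open scoped ContDiff ENNReal
open Vale.Agent.P363.R.Sob
open Vale.Agent.P262.H847

noncomputable section

variable {k : ℕ}

theorem D_ker {t : ℝ} (i : Fin k) (x y : Eu k) :
    D i (fun y : Eu k => (t⁻¹) ^ k * Fr.phi0 (t⁻¹ • (x - y))) y
      = (t⁻¹) ^ k * (-(t⁻¹) * D i Fr.phi0 (t⁻¹ • (x - y))) := by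
  have hs : ContDiff ℝ ∞ (fun y : Eu k => t⁻¹ • (x - y)) := by fun_prop
  have hc : ContDiff ℝ ∞ (fun y : Eu k => Fr.phi0 (t⁻¹ • (x - y))) := Fr.phi0_contDiff.comp hs
  rw [D_mul contDiff_const hc, D_const]
  have hd : HasFDerivAt (Fr.phi0 : Eu k → ℝ) (fderiv ℝ Fr.phi0 (t⁻¹ • (x - y))) (t⁻¹ • (x - y)) :=
    (dif Fr.phi0_contDiff).hasFDerivAt
  have h2 : HasFDerivAt (fun y : Eu k => t⁻¹ • (x - y))
      (t⁻¹ • (-ContinuousLinearMap.id ℝ (Eu k))) y := by
    have h3 : HasFDerivAt (fun y : Eu k => x - y) (-ContinuousLinearMap.id ℝ (Eu k)) y :=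
      (hasFDerivAt_id y).const_sub x
    exact h3.const_smul t⁻¹
  have h3 := hd.comp y h2
  have e0 : (fun y => Fr.phi0 (t⁻¹ • (x - y))) = Fr.phi0 ∘ (fun y : Eu k => t⁻¹ • (x - y)) := rfl
  simp only [D]
  rw [e0, h3.fderiv]
  simp

/-- the mollifier family -/
def fam (k : ℕ) : Fam k where
  M := Fr.M
  K := fun t x y => (t⁻¹) ^ k * Fr.phi0 (t⁻¹ • (x - y))
  M_test := fun ht hf => Fr.M_test ht hf
  D_M := fun i x ht hf => Fr.D_M ht hf i x
  ker := fun x ht _ => Fr.M_eq ht _ x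
  K_test := fun x ht => Fr.ker_sub_test ht x
  K_supp := by
    intro t x y ht h
    have : 2 ≤ ‖t⁻¹ • (x - y)‖ := by
      rw [norm_smul, norm_inv, Real.norm_of_nonneg ht.le, ← div_eq_inv_mul, le_div_iff₀ ht,
        norm_sub_rev]
      exact h
    rw [Fr.phi0_support this, mul_zero]
  K_cont := by
    intro t _
    refine continuous_const.mul (Fr.phi0_cont.comp ?_)
    fun_prop
  DK_cont := by
    intro t i _
    have e : (fun p : Eu k × Eu k => D i (fun y => (t⁻¹) ^ k * Fr.phi0 (t⁻¹ • (p.1 - y))) p.2)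
        = fun p => (t⁻¹) ^ k * (-(t⁻¹) * D i Fr.phi0 (t⁻¹ • (p.1 - p.2))) := by
      ext p; exact D_ker i p.1 p.2
    rw [e]
    refine continuous_const.mul (continuous_const.mul
      ((D_contDiff Fr.phi0_contDiff i).continuous.comp ?_))
    fun_prop
  bd_id := by
    obtain ⟨C, hC, h⟩ := Fr.M_sub_le (k := k)
    exact ⟨C, hC, fun t f _ _ hf => h t f hf⟩
  bd_M := ⟨1, zero_le_one, fun t f _ _ hf => by rw [one_mul]; exact Fr.M_sq_le t hf⟩
  comm0 := by
    intro q hq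
    obtain ⟨C, hC, h⟩ := Fr.comm_le hq
    exact ⟨C, hC, fun t f ht _ hf => h t f ht.le hf⟩
  comm1 := by
    intro q i hq
    obtain ⟨C, hC, h⟩ := Fr.D_comm_le hq i
    exact ⟨C, hC, fun t f ht ht1 hf => (h t f ht ht1 hf).1⟩
  comm2 := by
    intro q i hq
    obtain ⟨C, hC, h⟩ := Fr.D_comm_le hq i
    exact ⟨C, hC, fun t f ht ht1 hf => (h t f ht ht1 hf).2⟩

end

end Vale.Agent.P262.H853
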