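import Vale.Agent.P262.H853.Trans2
import Vale.Agent.P262.H853.Cuts

/-! P262, helper853: step 4 of note 6792 (localisation lemma). -/

namespace Vale.Agent.P262.H853

open MeasureTheory Filter Topology
open scoped ContDiff ENNReal
open Vale.Agent.P363.R.Sob

noncomputable section

variable {k J : ℕ} (S : Dat k J)

/-- Cauchy-Schwarz in the form of Young's inequality, integrated -/
theorem int_young {f g h : Eu k → ℝ} (hf : Integrable f) (hg : Integrable g) (hh : Integrable h)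
    {r : ℝ} (hr : 0 < r) (hpt : ∀ x, h x ^ 2 ≤ f x * g x) (hf0 : ∀ x, 0 ≤ f x)
    (hg0 : ∀ x, 0 ≤ g x) : ∫ x, h x ≤ r / 2 * (∫ x, f x) + 1 / (2 * r) * ∫ x, g x := by
  rw [← integral_const_mul, ← integral_const_mul,
    ← integral_add (hf.const_mul _) (hg.const_mul _)]
  refine integral_mono hh ((hf.const_mul _).add (hg.const_mul _)) fun x => ?_
  simp only [Pi.add_apply]
  have h1 := hpt x
  have h2 := hf0 x
  have h3 := hg0 x
  have h4 : h x ^ 2 ≤ (r / 2 * f x + 1 / (2 * r) * g x) ^ 2 := by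
    have e : (r / 2 * f x + 1 / (2 * r) * g x) ^ 2
        = f x * g x + (r / 2 * f x - 1 / (2 * r) * g x) ^ 2 := by
      field_simp
      ring
    rw [e]
    nlinarith [sq_nonneg (r / 2 * f x - 1 / (2 * r) * g x)]
  exact le_of_abs_le (abs_le_of_sq_le_sq h4 (by positivity))

namespace Dat

variable {G ξ η : Eu k → ℝ}

theorem Qf_sub_le' (hξ : Test ξ) (hη : Test η) :
    S.Qf (fun x => ξ x - η x) ≤ 2 * S.Qf ξ + 2 * S.Qf η := by
  unfold Qf
  rw [← integral_const_mul, ← integral_const_mul,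
    ← integral_add ((S.Q_int hξ).const_mul _) ((S.Q_int hη).const_mul _)]
  refine integral_mono (S.Q_int (Test.sub hξ hη)) (((S.Q_int hξ).const_mul _).add
    ((S.Q_int hη).const_mul _)) fun x => ?_
  simp only [Pi.add_apply]
  have e1 := S.en_expand hξ.1 hη.1 (-1) x
  have e2 := S.en_expand hξ.1 hη.1 1 x
  have e3 := S.en_nonneg (fun y => ξ y + 1 * η y) x
  have e4 : (fun y => ξ y + -1 * η y) = fun y => ξ y - η y := by ext y; ring
  rw [e4] at e1
  rw [e2] at e3
  have h1 := S.a_pos x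
  have h2 := S.rho_pos x
  have h3 : S.a x * (ξ x - η x) ^ 2 ≤ S.a x * (2 * ξ x ^ 2 + 2 * η x ^ 2) :=
    mul_le_mul_of_nonneg_left (by nlinarith [sq_nonneg (ξ x + η x)]) h1.le
  have h4 : (S.a x * (ξ x - η x) ^ 2 + S.en (fun y => ξ y - η y) (fun y => ξ y - η y) x)
      * S.rho x ≤ (S.a x * (2 * ξ x ^ 2 + 2 * η x ^ 2) + (2 * S.en ξ ξ x + 2 * S.en η η x))
      * S.rho x := mul_le_mul_of_nonneg_right (by linarith) h2.le
  refine h4.trans (le_of_eq ?_)
  ring

/-- the key identity and its estimate -/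
theorem J_split (hG : Bd G) (hξ : Test ξ) {χ c : Eu k → ℝ} (hχ : Test χ) (hχ0 : ∀ x, 0 ≤ χ x)
    (hχ1 : ∀ x, χ x ≤ 1) (hc : Test c) (hc0 : ∀ x, 0 ≤ c x)
    (hcχ : ∀ x ∈ tsupport χ, c x = 1) :
    S.Jf G ξ ≤ S.Rf G ξ (fun x => ξ x - χ x * G x)
      + (1 / 1000 * S.Jf G ξ + 250 * ∫ x, S.a x * ((1 - χ x) ^ 2 * G x ^ 2) * S.rho x)
      + (57 / 200 * (∫ x, c x * S.om x * (∑ j, S.Fl ξ j x ^ 2) * S.rho x)
        + 50 / 57 * ∫ x, S.a x * (∑ i, D i (fun y => χ y * G y) x ^ 2) * S.rho x) := by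
  have hχG : Test (fun x => χ x * G x) := hχ.mul hG.smooth
  have hr := S.rho_contDiff
  have hψ : Test (fun x => ξ x - χ x * G x) := Test.sub hξ hχG
  -- the middle term
  have b1 : Bd (fun x => (ξ x - G x) * ((1 - χ x) * G x)) := by
    have h1 : Bd (fun _ : Eu k => (1 : ℝ)) := ⟨contDiff_const, 1, fun x => by simp⟩
    exact ((Test.bd hξ).sub hG).mul ((h1.sub (Test.bd hχ)).mul hG)
  have b2 : Bd (fun x => (1 - χ x) ^ 2 * G x ^ 2) := by
    have h1 : Bd (fun _ : Eu k => (1 : ℝ)) := ⟨contDiff_const, 1, fun x => by simp⟩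
    have h2 := (h1.sub (Test.bd hχ)).mul hG
    have h3 := h2.mul h2
    have e : (fun x => (1 - χ x) ^ 2 * G x ^ 2)
        = fun x => (1 - χ x) * G x * ((1 - χ x) * G x) := by ext x; ring
    rw [e]; exact h3
  have b3 : Bd (fun x => (ξ x - G x) * (ξ x - G x)) := ((Test.bd hξ).sub hG).mul ((Test.bd hξ).sub hG)
  have iJ := S.J_int hG hξ
  have iR := S.R_int hG hξ hψ
  have iM := S.arho_bd b1
  have iE := S.en_int hξ.1 hχG
  have key : S.Jf G ξ = S.Rf G ξ (fun x => ξ x - χ x * G x)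
      + (∫ x, - (S.a x * ((ξ x - G x) * ((1 - χ x) * G x)) * S.rho x))
      + ∫ x, S.en ξ (fun y => χ y * G y) x * S.rho x := by
    unfold Jf Rf
    have k1 := integral_add iR iM.neg
    have k2 := integral_add (iR.add iM.neg) iE
    simp only [Pi.add_apply, Pi.neg_apply] at k1 k2
    rw [← k1, ← k2]
    refine integral_congr_ae (Eventually.of_forall fun x => ?_)
    have e1 : S.en ξ (fun x => ξ x - χ x * G x) x = S.en ξ ξ x - S.en ξ (fun y => χ y * G y) x := by
      unfold en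
      rw [← Finset.sum_sub_distrib]
      exact Finset.sum_congr rfl fun i _ => by rw [D_sub hξ.1 hχG.1]; ring
    simp only [e1]
    ring
  have m1 : ∫ x, - (S.a x * ((ξ x - G x) * ((1 - χ x) * G x)) * S.rho x)
      ≤ 1 / 1000 * S.Jf G ξ + 250 * ∫ x, S.a x * ((1 - χ x) ^ 2 * G x ^ 2) * S.rho x := by
    have h := int_young (S.arho_bd b3) (S.arho_bd b2) iM.neg (r := 1 / 500) (by norm_num)
      (fun x => le_of_eq (by simp only [Pi.neg_apply]; ring))
      (fun x => mul_nonneg (mul_nonneg (S.a_pos x).le (mul_self_nonneg _)) (S.rho_pos x).le)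
      (fun x => mul_nonneg (mul_nonneg (S.a_pos x).le (by positivity)) (S.rho_pos x).le)
    simp only [Pi.neg_apply] at h
    have h2 : ∫ x, S.a x * ((ξ x - G x) * (ξ x - G x)) * S.rho x ≤ S.Jf G ξ := by
      unfold Jf
      refine integral_mono (S.arho_bd b3) iJ fun x => ?_
      beta_reduce
      have h3 := S.en_nonneg ξ x
      have h4 := S.rho_pos x
      have h5 := mul_nonneg h3 h4.le
      linarith
    linarith
  have m2 : ∫ x, S.en ξ (fun y => χ y * G y) x * S.rho x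
      ≤ 57 / 200 * (∫ x, c x * S.om x * (∑ j, S.Fl ξ j x ^ 2) * S.rho x)
        + 50 / 57 * ∫ x, S.a x * (∑ i, D i (fun y => χ y * G y) x ^ 2) * S.rho x := by
    have i1 : Integrable (fun x => c x * S.om x * (∑ j, S.Fl ξ j x ^ 2) * S.rho x) :=
      Test.integrable (((hc.mul S.om_contDiff).mul
        (ContDiff.sum fun j _ => (S.Fl_contDiff hξ.1 j).pow 2)).mul hr)
    have i2 : Integrable (fun x => S.a x * (∑ i, D i (fun y => χ y * G y) x ^ 2) * S.rho x) := by
      have t : Test (fun x => ∑ i, D i (fun y => χ y * G y) x ^ 2) := Test.sum _ fun i => by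
        have h1 := (Test.D hχG i).mul (Test.D hχG i).1
        have e : (fun x => D i (fun y => χ y * G y) x ^ 2)
            = fun x => D i (fun y => χ y * G y) x * D i (fun y => χ y * G y) x := by
          ext x; ring
        rw [e]; exact h1
      exact Test.integrable ((Test.mul' S.a_contDiff t).mul hr)
    have h := int_young i1 i2 iE (r := 57 / 100) (by norm_num) (fun x => ?_)
      (fun x => ?_) (fun x => ?_)
    · refine h.trans (le_of_eq ?_)
      norm_num
    · by_cases hx : x ∈ tsupport χ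
      · rw [hcχ x hx]
        have h1 := Finset.sum_mul_sq_le_sq_mul_sq Finset.univ (fun i => S.Fl ξ i x)
          fun i => D i (fun y => χ y * G y) x
        have h2 := S.a_mul_om x
        have h3 := S.rho_pos x
        have e1 : (S.en ξ (fun y => χ y * G y) x * S.rho x) ^ 2
            = (∑ i, S.Fl ξ i x * D i (fun y => χ y * G y) x) ^ 2 * S.rho x ^ 2 := by
          unfold en; ring
        rw [e1]
        have h4 := mul_le_mul_of_nonneg_right h1 (sq_nonneg (S.rho x))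
        refine h4.trans (le_of_eq ?_)
        calc (∑ i, S.Fl ξ i x ^ 2) * (∑ i, D i (fun y => χ y * G y) x ^ 2) * S.rho x ^ 2
            = (S.a x * S.om x) * ((∑ i, S.Fl ξ i x ^ 2)
              * (∑ i, D i (fun y => χ y * G y) x ^ 2) * S.rho x ^ 2) := by rw [h2, one_mul]
          _ = _ := by ring
      · have hev : (fun y => χ y * G y) =ᶠ[𝓝 x] fun _ => 0 := by
          have h1 : χ =ᶠ[𝓝 x] fun _ => 0 := notMem_tsupport_iff_eventuallyEq.1 hx
          filter_upwards [h1] with y hy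
          rw [hy, zero_mul]
        have d1 : ∀ i, D i (fun y => χ y * G y) x = 0 := fun i => by
          rw [D_congr_nhds hev, D_const]
        unfold en
        simp [d1]
    · have h1 := hc0 x
      have h2 := S.om_pos x
      have h3 := S.rho_pos x
      have h4 : 0 ≤ ∑ j, S.Fl ξ j x ^ 2 := Finset.sum_nonneg fun j _ => sq_nonneg _
      positivity
    · have h2 := S.a_pos x
      have h3 := S.rho_pos x
      have h4 : 0 ≤ ∑ i, D i (fun y => χ y * G y) x ^ 2 := Finset.sum_nonneg fun j _ => sq_nonneg _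
      positivity
  rw [key]
  rw [← key]
  linarith

/-- the cut-off costs little -/
theorem grad_cut (hG : Bd G) (hG1 : ∃ C, ∀ x i, |D i G x| ≤ C) {χ : Eu k → ℝ} (hχ : Test χ)
    (hχ0 : ∀ x, 0 ≤ χ x) (hχ1 : ∀ x, χ x ≤ 1) {s : ℝ} (hs : ∀ x, ∑ i, D i χ x ^ 2 ≤ s) :
    ∫ x, S.a x * (∑ i, D i (fun y => χ y * G y) x ^ 2) * S.rho x
      ≤ 11 / 10 * (∫ x, S.a x * (∑ i, D i G x ^ 2) * S.rho x)
        + 11 * s * ∫ x, S.a x * (G x ^ 2) * S.rho x := by
  obtain ⟨C, hC⟩ := hG1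
  have b1 : Bd (fun x => ∑ i, D i G x ^ 2) := by
    refine ⟨ContDiff.sum fun i _ => (D_contDiff hG.smooth i).pow 2, ∑ _i : Fin k, C ^ 2,
      fun x => ?_⟩
    rw [abs_of_nonneg (Finset.sum_nonneg fun i _ => sq_nonneg _)]
    refine Finset.sum_le_sum fun i _ => ?_
    rw [← sq_abs]
    exact pow_le_pow_left₀ (abs_nonneg _) (hC x i) 2
  have b2 : Bd (fun x => G x ^ 2) := by
    have e : (fun x => G x ^ 2) = fun x => G x * G x := by ext x; ring
    rw [e]; exact hG.mul hG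
  have hχG : Test (fun x => χ x * G x) := hχ.mul hG.smooth
  have i2 : Integrable (fun x => S.a x * (∑ i, D i (fun y => χ y * G y) x ^ 2) * S.rho x) := by
    have t : Test (fun x => ∑ i, D i (fun y => χ y * G y) x ^ 2) := Test.sum _ fun i => by
      have h1 := (Test.D hχG i).mul (Test.D hχG i).1
      have e : (fun x => D i (fun y => χ y * G y) x ^ 2)
          = fun x => D i (fun y => χ y * G y) x * D i (fun y => χ y * G y) x := by
        ext x; ring
      rw [e]; exact h1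
    exact Test.integrable ((Test.mul' S.a_contDiff t).mul S.rho_contDiff)
  rw [← integral_const_mul, ← integral_const_mul,
    ← integral_add ((S.arho_bd b1).const_mul _) ((S.arho_bd b2).const_mul _)]
  refine integral_mono i2 (((S.arho_bd b1).const_mul _).add ((S.arho_bd b2).const_mul _))
    fun x => ?_
  simp only [Pi.add_apply]
  have h1 : ∑ i, D i (fun y => χ y * G y) x ^ 2
      ≤ 11 / 10 * ∑ i, D i G x ^ 2 + 11 * (G x ^ 2 * ∑ i, D i χ x ^ 2) := by
    rw [Finset.mul_sum, Finset.mul_sum, Finset.mul_sum, ← Finset.sum_add_distrib]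
    refine Finset.sum_le_sum fun i _ => ?_
    rw [D_mul hχ.1 hG.smooth]
    have a1 := hχ0 x
    have a2 := hχ1 x
    set p := D i χ x * G x with hp
    set q := D i G x with hq
    have e1 : G x ^ 2 * D i χ x ^ 2 = p ^ 2 := by rw [hp]; ring
    rw [e1]
    have e2 : (χ x * q) ^ 2 ≤ q ^ 2 := by
      rw [mul_pow]
      exact mul_le_of_le_one_left (sq_nonneg _) (by nlinarith)
    nlinarith [sq_nonneg (χ x * q - 10 * p)]
  have h2 : G x ^ 2 * ∑ i, D i χ x ^ 2 ≤ G x ^ 2 * s := mul_le_mul_of_nonneg_left (hs x) (sq_nonneg _)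
  have h3 := S.a_pos x
  have h4 := S.rho_pos x
  have h5 : S.a x * (∑ i, D i (fun y => χ y * G y) x ^ 2) * S.rho x
      ≤ S.a x * (11 / 10 * ∑ i, D i G x ^ 2 + 11 * (G x ^ 2 * s)) * S.rho x :=
    mul_le_mul_of_nonneg_right (mul_le_mul_of_nonneg_left (by linarith) h3.le) h4.le
  linarith

/-- tails vanish -/
theorem tail_tendsto (hG : Bd G) : Tendsto (fun m : ℕ =>
    ∫ x, S.a x * ((1 - cut m x) ^ 2 * G x ^ 2) * S.rho x) atTop (𝓝 0) := by
  have b2 : Bd (fun x => G x ^ 2) := by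
    have e : (fun x => G x ^ 2) = fun x => G x * G x := by ext x; ring
    rw [e]; exact hG.mul hG
  have h0 : (0 : ℝ) = ∫ _x : Eu k, (0 : ℝ) := by simp
  rw [h0]
  refine tendsto_integral_of_dominated_convergence (fun x => S.a x * (G x ^ 2) * S.rho x)
    (fun m => ?_) (S.arho_bd b2) (fun m => Eventually.of_forall fun x => ?_)
    (Eventually.of_forall fun x => ?_)
  · exact ((S.a_contDiff.mul (((contDiff_const.sub (cut_test m).1).pow 2).mul
      (hG.smooth.pow 2))).mul S.rho_contDiff).continuous.aestronglyMeasurable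
  · have a1 := cut_nonneg m x
    have a2 := cut_le_one m x
    have h3 := S.a_pos x
    have h4 := S.rho_pos x
    rw [Real.norm_eq_abs, abs_of_nonneg (by positivity)]
    have e : (1 - cut m x) ^ 2 ≤ 1 := by nlinarith
    exact mul_le_mul_of_nonneg_right (mul_le_mul_of_nonneg_left
      (mul_le_of_le_one_left (sq_nonneg _) e) h3.le) h4.le
  · refine tendsto_const_nhds.congr' ?_
    filter_upwards [eventually_ge_atTop ⌈‖x‖⌉₊] with m hm
    have h3 : ‖x‖ ≤ (m : ℝ) + 1 := by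
      have h1 : ‖x‖ ≤ (⌈‖x‖⌉₊ : ℝ) := Nat.le_ceil _
      have h2 : ((⌈‖x‖⌉₊ : ℕ) : ℝ) ≤ m := by exact_mod_cast hm
      linarith
    rw [cut_eq_one m x h3]
    ring

/-- LOCALISATION LEMMA (step 4) -/
theorem loc (A : Fam k) (hG : Bd G) (hG1 : ∃ C, ∀ x i, |D i G x| ≤ C) {η : ℝ} (hη : 0 < η) :
    ∃ ξ, Test ξ ∧
      S.Jf G ξ ≤ 2 * (∫ x, S.a x * (∑ i, D i G x ^ 2) * S.rho x) + η := by
  obtain ⟨Z⟩ := exists_mseq S hG
  have hδ := S.hδ
  set DG := ∫ x, S.a x * (∑ i, D i G x ^ 2) * S.rho x with hDG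
  have hDG0 : 0 ≤ DG := integral_nonneg fun x => by
    have h2 := S.a_pos x
    have h3 := S.rho_pos x
    have h4 : 0 ≤ ∑ i, D i G x ^ 2 := Finset.sum_nonneg fun j _ => sq_nonneg _
    positivity
  set GG := ∫ x, S.a x * (G x ^ 2) * S.rho x with hGG
  have hGG0 : 0 ≤ GG := integral_nonneg fun x => by
    have h2 := S.a_pos x
    have h3 := S.rho_pos x
    positivity
  obtain ⟨C, hC, hb⟩ := exists_D_bound (k := k)
  -- choose the cut-off `χ`
  have t1 : ∀ᶠ m : ℕ in atTop,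
      ∫ x, S.a x * ((1 - cut m x) ^ 2 * G x ^ 2) * S.rho x < η / 4000 :=
    (S.tail_tendsto hG).eventually (gt_mem_nhds (by positivity))
  have hlim : Tendsto (fun m : ℕ => (11 * C * GG) * ((m : ℝ) + 1)⁻¹) atTop
      (𝓝 ((11 * C * GG) * 0)) := by
    refine Tendsto.const_mul _ ?_
    simpa using tendsto_one_div_add_atTop_nhds_zero_nat (𝕜 := ℝ)
  rw [mul_zero] at hlim
  have t2 : ∀ᶠ m : ℕ in atTop, (11 * C * GG) * ((m : ℝ) + 1)⁻¹ < η / 16 :=
    hlim.eventually (gt_mem_nhds (by positivity))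
  obtain ⟨m, hm1, hm2⟩ := (t1.and t2).exists
  set χ : Eu k → ℝ := cut m with hχd
  have hχ : Test χ := cut_test m
  have hχ0 := cut_nonneg (E := Eu k) m
  have hχ1 := cut_le_one (E := Eu k) m
  have g1 := S.grad_cut hG hG1 hχ hχ0 hχ1 (s := C * ((m : ℝ) + 1)⁻¹) fun x => (hb m x).1
  rw [← hDG, ← hGG] at g1
  have g2 : 11 * (C * ((m : ℝ) + 1)⁻¹) * GG < η / 16 := by
    calc 11 * (C * ((m : ℝ) + 1)⁻¹) * GG = (11 * C * GG) * ((m : ℝ) + 1)⁻¹ := by ring
      _ < η / 16 := hm2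
  -- the cut-off `c`
  set κ : ℝ := min (1 / 100) (S.δ / 100) with hκd
  have hκ0 : 0 < κ := lt_min (by norm_num) (by positivity)
  have hκ1 : κ ≤ 1 / 100 := min_le_left _ _
  have hκ2 : κ / S.δ ≤ 1 / 100 := by
    rw [div_le_iff₀ hδ]
    have := min_le_right (1 / 100) (S.δ / 100)
    rw [← hκd] at this
    linarith
  obtain ⟨c, c', χ', R, hcut, hc1, hcR, hχ', hχ'1⟩ := exists_cut (k := k) hκ0 (2 * ((m : ℝ) + 1))
  have e1 := Z.near_bochner A hG hκ0.le (by linarith) hcut hcR hχ' hχ'1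
    (show (0 : ℝ) < η / 16 by positivity)
  -- the Euler-Lagrange error
  obtain ⟨B, hB, hQ⟩ := Z.Qbd hG
  have hχG : Test (fun x => χ x * G x) := hχ.mul hG.smooth
  set B2 := 2 * B + 2 * S.Qf (fun x => χ x * G x) with hB2
  have hlim2 : Tendsto (fun n => B2 * ep n) atTop (𝓝 (B2 * 0)) := ep_tendsto.const_mul _
  rw [mul_zero] at hlim2
  have e2 : ∀ᶠ n in atTop, B2 * ep n < (η / 16) ^ 2 :=
    hlim2.eventually (gt_mem_nhds (by positivity))
  obtain ⟨n, hn1, hn2⟩ := (e1.and e2).exists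
  refine ⟨Z.ξ n, Z.test n, ?_⟩
  have hs := S.J_split hG (Z.test n) hχ hχ0 hχ1 hcut.test hcut.nonneg
    (fun x hx => hc1 x (tsupport_cut m hx))
  set Jn := S.Jf G (Z.ξ n) with hJn
  have hJ0 : 0 ≤ Jn := S.Jf_nonneg _
  have hR : S.Rf G (Z.ξ n) (fun x => Z.ξ n x - χ x * G x) ≤ η / 16 := by
    have h1 := Z.R n _ (Test.sub (Z.test n) hχG)
    have h2 := S.Qf_sub_le' (Z.test n) hχG
    have h3 := hQ n
    have h4 : ep n * S.Qf (fun x => Z.ξ n x - χ x * G x) ≤ ep n * B2 :=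
      mul_le_mul_of_nonneg_left (by linarith) (ep_pos n).le
    have h5 : S.Rf G (Z.ξ n) (fun x => Z.ξ n x - χ x * G x) ^ 2 ≤ (η / 16) ^ 2 := by
      linarith
    exact le_of_abs_le (abs_le_of_sq_le_sq h5 (by positivity))
  set X := ∫ x, c x * S.om x * (∑ j, S.Fl (Z.ξ n) j x ^ 2) * S.rho x with hX
  have hX0 : 0 ≤ X := integral_nonneg fun x => by
    have h1 := hcut.nonneg x
    have h2 := S.om_pos x
    have h3 := S.rho_pos x
    have h4 : 0 ≤ ∑ j, S.Fl (Z.ξ n) j x ^ 2 := Finset.sum_nonneg fun j _ => sq_nonneg _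
    positivity
  have hX1 : 86 / 100 * X ≤ 135 / 100 * Jn + η / 16 := by
    have h1 : 86 / 100 * X ≤ (87 / 100 - κ) * X := mul_le_mul_of_nonneg_right (by linarith) hX0
    have h2 : (121 / 100 * (11 / 10 + κ) + 33 / 100 * (κ / S.δ)) * Jn ≤ 135 / 100 * Jn :=
      mul_le_mul_of_nonneg_right (by linarith) hJ0
    linarith
  linarith

end Dat

end

end Vale.Agent.P262.H853
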