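import Vale.Agent.P262.H853.Min

/-! P262, helper853: the quadratic functional. -/

namespace Vale.Agent.P262.H853

open MeasureTheory Filter Topology
open scoped ContDiff ENNReal
open Vale.Agent.P363.R.Sob

noncomputable section

variable {k J : ℕ} (S : Dat k J)

theorem gauss_int : Integrable (fun x : Eu k => Real.exp (-(1 / 4) * ‖x‖ ^ 2)) := by
  have h := (GaussianFourier.integrable_cexp_neg_mul_sq_norm_add (V := Eu k) (b := (1 / 4 : ℂ))
    (by norm_num) 0 0).norm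
  refine h.congr (Eventually.of_forall fun x => ?_)
  simp only [Complex.norm_exp]
  congr 1
  have : (-(1 / 4 : ℂ) * (‖x‖ : ℂ) ^ 2 + 0 * ((inner ℝ (0 : Eu k) x : ℝ) : ℂ))
      = ((-(1 / 4) * ‖x‖ ^ 2 : ℝ) : ℂ) := by push_cast; ring
  rw [this, Complex.ofReal_re]

namespace Dat

theorem a_pos (x : Eu k) : 0 < S.a x := Real.sqrt_pos.2 (S.s_pos x)

theorem a_ge (x : Eu k) : 10 ≤ S.a x := by
  unfold a
  apply Real.le_sqrt_of_sq_le
  have := S.s_ge x
  linarith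

theorem a_sq (x : Eu k) : S.a x ^ 2 = S.s x := Real.sq_sqrt (S.s_pos x).le

theorem a_contDiff : ContDiff ℝ ∞ S.a := S.s_contDiff.sqrt fun x => (S.s_pos x).ne'

theorem rho_pos (x : Eu k) : 0 < S.rho x := Real.exp_pos _

theorem rho_contDiff : ContDiff ℝ ∞ S.rho := S.U_contDiff.neg.exp

theorem a_le (x : Eu k) : S.a x ≤ 10 + |S.w x| + ‖x‖ := by
  have h1 := S.a_sq x
  have h2 := S.hA x
  have h3 : ‖S.A x‖ ^ 2 ≤ ‖x‖ ^ 2 := pow_le_pow_left₀ (norm_nonneg _) h2 2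
  apply le_of_sq_le_sq _ (by positivity)
  rw [h1]
  unfold s
  have h4 := sq_abs (S.w x)
  nlinarith [abs_nonneg (S.w x), norm_nonneg x, mul_nonneg (abs_nonneg (S.w x)) (norm_nonneg x)]

theorem arho_le (x : Eu k) : S.a x * S.rho x ≤ 12 * Real.exp (-(1 / 4) * ‖x‖ ^ 2) := by
  set w := S.w x with hw
  set r := ‖x‖ with hr
  have hr0 : 0 ≤ r := norm_nonneg _
  have e1 : S.rho x = Real.exp (-(w ^ 2 / 2)) * (Real.exp (-(1 / 4) * r ^ 2)
      * Real.exp (-(1 / 4) * r ^ 2)) := by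
    unfold rho U
    rw [← Real.exp_add, ← Real.exp_add]
    congr 1; ring
  have h1 : |w| * Real.exp (-(w ^ 2 / 2)) ≤ 1 := by
    rw [Real.exp_neg, ← div_eq_mul_inv, div_le_one (Real.exp_pos _)]
    have := Real.add_one_le_exp (w ^ 2 / 2)
    nlinarith [sq_abs w, sq_nonneg (|w| - 1)]
  have h2 : r * Real.exp (-(1 / 4) * r ^ 2) ≤ 1 := by
    rw [show -(1 / 4) * r ^ 2 = -(r ^ 2 / 4) by ring, Real.exp_neg, ← div_eq_mul_inv,
      div_le_one (Real.exp_pos _)]
    have := Real.add_one_le_exp (r ^ 2 / 4)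
    nlinarith [sq_nonneg (r - 2)]
  have h3 : Real.exp (-(w ^ 2 / 2)) ≤ 1 := Real.exp_le_one_iff.2 (by nlinarith [sq_nonneg w])
  have h4 : Real.exp (-(1 / 4) * r ^ 2) ≤ 1 :=
    Real.exp_le_one_iff.2 (by nlinarith [sq_nonneg r])
  have h5 := Real.exp_pos (-(w ^ 2 / 2))
  have h6 := Real.exp_pos (-(1 / 4) * r ^ 2)
  set X := Real.exp (-(w ^ 2 / 2)) with hX
  set Y := Real.exp (-(1 / 4) * r ^ 2) with hY
  rw [e1]
  have h7 : S.a x * (X * (Y * Y)) ≤ (10 + |w| + r) * (X * (Y * Y)) :=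
    mul_le_mul_of_nonneg_right (S.a_le x) (by positivity)
  refine h7.trans ?_
  have e2 : (10 + |w| + r) * (X * (Y * Y))
      = (10 * (X * Y) + (|w| * X) * Y + (r * Y) * X) * Y := by ring
  rw [e2]
  apply mul_le_mul_of_nonneg_right _ h6.le
  have a1 : X * Y ≤ 1 := mul_le_one₀ h3 h6.le h4
  have a2 : (|w| * X) * Y ≤ 1 := mul_le_one₀ h1 h6.le h4
  have a3 : (r * Y) * X ≤ 1 := mul_le_one₀ h2 h5.le h3
  linarith

theorem arho_int : Integrable (fun x => S.a x * S.rho x) := by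
  refine (gauss_int.const_mul 12).mono'
    ((S.a_contDiff.mul S.rho_contDiff).continuous.aestronglyMeasurable)
    (Eventually.of_forall fun x => ?_)
  rw [Real.norm_eq_abs, abs_of_nonneg (mul_nonneg (S.a_pos x).le (S.rho_pos x).le)]
  exact S.arho_le x

/-- multiplying by a bounded function -/
theorem arho_bdd {f : Eu k → ℝ} (hf : Continuous f) {C : ℝ} (hC : ∀ x, |f x| ≤ C) :
    Integrable (fun x => S.a x * f x * S.rho x) := by
  refine ((S.arho_int).const_mul C).mono'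
    (((S.a_contDiff.continuous.mul hf).mul S.rho_contDiff.continuous).aestronglyMeasurable)
    (Eventually.of_forall fun x => ?_)
  rw [Real.norm_eq_abs, abs_mul, abs_mul, abs_of_pos (S.a_pos x), abs_of_pos (S.rho_pos x)]
  have h1 := hC x
  have h2 := S.a_pos x
  have h3 := S.rho_pos x
  calc S.a x * |f x| * S.rho x = |f x| * (S.a x * S.rho x) := by ring
    _ ≤ C * (S.a x * S.rho x) := mul_le_mul_of_nonneg_right h1 (by positivity)

variable {G ξ η ψ : Eu k → ℝ}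

/-- the functional -/
def Jf (G ξ : Eu k → ℝ) : ℝ := ∫ x, (S.a x * (ξ x - G x) ^ 2 + S.en ξ ξ x) * S.rho x

/-- its quadratic part -/
def Qf (η : Eu k → ℝ) : ℝ := ∫ x, (S.a x * η x ^ 2 + S.en η η x) * S.rho x

/-- half of its differential -/
def Rf (G ξ η : Eu k → ℝ) : ℝ := ∫ x, (S.a x * (ξ x - G x) * η x + S.en ξ η x) * S.rho x

/-- smooth bounded -/
structure Bd (G : Eu k → ℝ) : Prop where
  smooth : ContDiff ℝ ∞ G
  bdd : ∃ C, ∀ x, |G x| ≤ C

theorem Test.bd (h : Test ξ) : Bd ξ := by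
  refine ⟨h.1, ?_⟩
  obtain ⟨C, hC⟩ := h.2.exists_bound_of_continuous h.1.continuous
  exact ⟨C, fun x => by simpa using hC x⟩

theorem Bd.mul {f g : Eu k → ℝ} (hf : Bd f) (hg : Bd g) : Bd (fun x => f x * g x) := by
  obtain ⟨C, hC⟩ := hf.bdd
  obtain ⟨C', hC'⟩ := hg.bdd
  refine ⟨hf.smooth.mul hg.smooth, C * C', fun x => ?_⟩
  rw [abs_mul]
  exact mul_le_mul (hC x) (hC' x) (abs_nonneg _) ((abs_nonneg _).trans (hC x))

theorem Bd.sub {f g : Eu k → ℝ} (hf : Bd f) (hg : Bd g) : Bd (fun x => f x - g x) := by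
  obtain ⟨C, hC⟩ := hf.bdd
  obtain ⟨C', hC'⟩ := hg.bdd
  exact ⟨hf.smooth.sub hg.smooth, C + C', fun x => (abs_sub _ _).trans (add_le_add (hC x) (hC' x))⟩

theorem arho_bd {f : Eu k → ℝ} (hf : Bd f) : Integrable (fun x => S.a x * f x * S.rho x) := by
  obtain ⟨C, hC⟩ := hf.bdd
  exact S.arho_bdd hf.smooth.continuous hC

theorem en_int (hξ : ContDiff ℝ ∞ ξ) (hη : Test η) :
    Integrable (fun x => S.en ξ η x * S.rho x) :=
  Test.integrable ((S.en_test hξ hη).mul S.rho_contDiff)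

theorem J_int (hG : Bd G) (hξ : Test ξ) :
    Integrable (fun x => (S.a x * (ξ x - G x) ^ 2 + S.en ξ ξ x) * S.rho x) := by
  have h := (Test.bd hξ).sub hG
  have h1 := S.arho_bd (h.mul h)
  refine (h1.add (S.en_int hξ.1 hξ)).congr (Eventually.of_forall fun x => ?_)
  simp only [Pi.add_apply]
  ring

theorem Q_int (hη : Test η) :
    Integrable (fun x => (S.a x * η x ^ 2 + S.en η η x) * S.rho x) := by
  have h := Test.bd hη
  have h1 := S.arho_bd (h.mul h)
  refine (h1.add (S.en_int hη.1 hη)).congr (Eventually.of_forall fun x => ?_)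
  simp only [Pi.add_apply]
  ring

theorem R_int (hG : Bd G) (hξ : Test ξ) (hη : Test η) :
    Integrable (fun x => (S.a x * (ξ x - G x) * η x + S.en ξ η x) * S.rho x) := by
  have h1 := S.arho_bd (((Test.bd hξ).sub hG).mul (Test.bd hη))
  refine (h1.add (S.en_int hξ.1 hη)).congr (Eventually.of_forall fun x => ?_)
  simp only [Pi.add_apply]
  ring

theorem Jf_nonneg (ξ : Eu k → ℝ) : 0 ≤ S.Jf G ξ := by
  refine integral_nonneg fun x => ?_
  have h1 := S.a_pos x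
  have h2 := S.rho_pos x
  have h3 := S.en_nonneg ξ x
  positivity

theorem Qf_nonneg (ξ : Eu k → ℝ) : 0 ≤ S.Qf ξ := by
  refine integral_nonneg fun x => ?_
  have h1 := S.a_pos x
  have h2 := S.rho_pos x
  have h3 := S.en_nonneg ξ x
  positivity

theorem Jf_expand (hG : Bd G) (hξ : Test ξ) (hη : Test η) (t : ℝ) :
    S.Jf G (fun x => ξ x + t * η x) = S.Jf G ξ + 2 * t * S.Rf G ξ η + t ^ 2 * S.Qf η := by
  have i1 := S.J_int hG hξ
  have i2 := (S.R_int hG hξ hη).const_mul (2 * t)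
  have i3 := (S.Q_int hη).const_mul (t ^ 2)
  have e1 := integral_add i1 i2
  have e2 := integral_add (i1.add i2) i3
  simp only [Pi.add_apply] at e1 e2
  unfold Jf Rf Qf
  rw [← integral_const_mul, ← integral_const_mul, ← e1, ← e2]
  refine integral_congr_ae (Eventually.of_forall fun x => ?_)
  simp only [S.en_expand hξ.1 hη.1]
  ring

theorem Test_add_mul (hξ : Test ξ) (hη : Test η) (t : ℝ) : Test (fun x => ξ x + t * η x) :=
  Test.add hξ (Test.mul' contDiff_const hη)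

/-- near-minimisers -/
theorem exists_near_min (hG : Bd G) {ε : ℝ} (hε : 0 < ε) :
    ∃ ξ, Test ξ ∧ S.Jf G ξ ≤ S.Jf G (fun _ => 0) + ε ∧
      ∀ η, Test η → S.Rf G ξ η ^ 2 ≤ ε * S.Qf η := by
  refine near_min Test (S.Jf G) S.Qf (S.Rf G) ⟨contDiff_const, HasCompactSupport.zero⟩
    (fun ξ η t hξ hη => Test_add_mul hξ hη t) (fun ξ _ => S.Jf_nonneg ξ)
    (fun ξ η t hξ hη => S.Jf_expand hG hξ hη t) hε

/-- near-minimisers are close to each other -/
theorem Qf_sub_le (hG : Bd G) {ξ ξ' : Eu k → ℝ} (hξ : Test ξ) (hξ' : Test ξ') {ε ε' : ℝ}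
    (hε : 0 ≤ ε) (hε' : 0 ≤ ε') (h : ∀ η, Test η → S.Rf G ξ η ^ 2 ≤ ε * S.Qf η)
    (h' : ∀ η, Test η → S.Rf G ξ' η ^ 2 ≤ ε' * S.Qf η) :
    S.Qf (fun x => ξ x - ξ' x) ≤ 2 * (ε + ε') := by
  set ψ : Eu k → ℝ := fun x => ξ x - ξ' x with hψ
  have hψt : Test ψ := Test.sub hξ hξ'
  have e1 : S.Rf G ξ ψ - S.Rf G ξ' ψ = S.Qf ψ := by
    unfold Rf Qf
    rw [← integral_sub (S.R_int hG hξ hψt) (S.R_int hG hξ' hψt)]
    refine integral_congr_ae (Eventually.of_forall fun x => ?_)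
    have e2 : S.en ψ ψ x = S.en ξ ψ x - S.en ξ' ψ x := by
      unfold en
      rw [← Finset.sum_sub_distrib]
      refine Finset.sum_congr rfl fun i _ => ?_
      have : S.Fl ψ i x = S.Fl ξ i x - S.Fl ξ' i x := by
        have := S.Fl_add_mul hξ.1 hξ'.1 (-1) i x
        have e3 : (fun y => ξ y + -1 * ξ' y) = ψ := by ext y; simp only [hψ]; ring
        rw [e3] at this
        rw [this]; ring
      rw [this]; ring
    simp only [e2]
    simp only [hψ]
    ring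
  have h1 := h ψ hψt
  have h2 := h' ψ hψt
  have h0 := S.Qf_nonneg ψ
  by_contra hcon
  push Not at hcon
  have h3 : S.Qf ψ ^ 2 ≤ 2 * (ε + ε') * S.Qf ψ := by
    have h4 : S.Qf ψ ^ 2 = (S.Rf G ξ ψ - S.Rf G ξ' ψ) ^ 2 := by rw [e1]
    rw [h4]
    nlinarith [sq_nonneg (S.Rf G ξ ψ + S.Rf G ξ' ψ)]
  nlinarith

end Dat

end

end Vale.Agent.P262.H853
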