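import Vale.Agent.P262.H853.Point2

/-! P262, helper853: the inverse Hessian, the field `F = (1/2) P⁻¹ ∇ξ` and its energy. -/

namespace Vale.Agent.P262.H853

open MeasureTheory Filter Topology Matrix
open scoped ContDiff ENNReal Matrix
open Vale.Agent.P363.R.Sob

noncomputable section

variable {k J : ℕ} (S : Dat k J)

theorem det_contDiff {M : Eu k → Matrix (Fin k) (Fin k) ℝ}
    (hM : ∀ i j, ContDiff ℝ ∞ (fun x => M x i j)) : ContDiff ℝ ∞ (fun x => (M x).det) := by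
  simp only [Matrix.det_apply]
  refine ContDiff.sum fun σ _ => ?_
  refine ContDiff.const_smul _ ?_
  exact contDiff_prod fun i _ => hM _ _

theorem inv_contDiff {M : Eu k → Matrix (Fin k) (Fin k) ℝ}
    (hM : ∀ i j, ContDiff ℝ ∞ (fun x => M x i j)) (hd : ∀ x, (M x).det ≠ 0) (i j : Fin k) :
    ContDiff ℝ ∞ (fun x => (M x)⁻¹ i j) := by
  have h1 : ∀ x, (M x)⁻¹ i j = ((M x).det)⁻¹ * ((M x).updateRow j (Pi.single i 1)).det := by
    intro x
    rw [Matrix.inv_def, Matrix.smul_apply, Matrix.adjugate_apply, Ring.inverse_eq_inv',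
      smul_eq_mul]
  simp only [h1]
  refine ((det_contDiff hM).inv hd).mul (det_contDiff ?_)
  intro a b
  by_cases h : a = j
  · subst h
    simp only [Matrix.updateRow_self]
    exact contDiff_const
  · simp only [Matrix.updateRow_ne h]
    exact hM a b

namespace Dat

/-- the Hessian matrix -/
def Pm (x : Eu k) : Matrix (Fin k) (Fin k) ℝ := Matrix.of fun i j => S.P i j x

theorem P_contDiff (i j : Fin k) : ContDiff ℝ ∞ (S.P i j) :=
  (D_contDiff (D_contDiff S.hw j) i).neg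

theorem P_symm (i j : Fin k) (x : Eu k) : S.P i j x = S.P j i x := by
  unfold P; rw [D_comm S.hw]

theorem Pm_posDef (x : Eu k) : (S.Pm x).PosDef :=
  posDef_of (fun i j => S.P_symm i j x) S.hδ (S.conc x)

theorem Pm_det (x : Eu k) : (S.Pm x).det ≠ 0 := (S.Pm_posDef x).det_pos.ne'

/-- the inverse Hessian -/
def q (i j : Fin k) (x : Eu k) : ℝ := (S.Pm x)⁻¹ i j

theorem q_contDiff (i j : Fin k) : ContDiff ℝ ∞ (S.q i j) :=
  inv_contDiff (M := S.Pm) (fun i j => S.P_contDiff i j) S.Pm_det i j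

theorem P_q (i l : Fin k) (x : Eu k) : ∑ j, S.P i j x * S.q j l x = if i = l then 1 else 0 := by
  have h := Matrix.mul_nonsing_inv (S.Pm x) (isUnit_iff_ne_zero.mpr (S.Pm_det x))
  have h2 := congrFun (congrFun h i) l
  rw [Matrix.mul_apply, Matrix.one_apply] at h2
  exact h2

theorem q_symm (i j : Fin k) (x : Eu k) : S.q i j x = S.q j i x := by
  have h : (S.Pm x)ᵀ = S.Pm x := by
    ext a b; exact S.P_symm b a x
  have h2 : ((S.Pm x)⁻¹)ᵀ = (S.Pm x)⁻¹ := by rw [Matrix.transpose_nonsing_inv, h]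
  exact congrFun (congrFun h2 j) i

/-- the field `(1/2) P⁻¹ ∇ξ` -/
def Fl (ξ : Eu k → ℝ) (i : Fin k) (x : Eu k) : ℝ := ∑ j, (1 / 2 * S.q i j x) * D j ξ x

variable {ξ η : Eu k → ℝ}

theorem Fl_contDiff (hξ : ContDiff ℝ ∞ ξ) (i : Fin k) : ContDiff ℝ ∞ (S.Fl ξ i) :=
  ContDiff.sum fun j _ => (contDiff_const.mul (S.q_contDiff i j)).mul (D_contDiff hξ j)

theorem Fl_test (hξ : Test ξ) (i : Fin k) : Test (S.Fl ξ i) :=
  Test.sum _ fun j => Test.mul' (contDiff_const.mul (S.q_contDiff i j)) (Test.D hξ j)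

theorem P_Fl (i : Fin k) (x : Eu k) : ∑ j, S.P i j x * S.Fl ξ j x = 1 / 2 * D i ξ x := by
  simp only [Fl, Finset.mul_sum]
  rw [Finset.sum_comm]
  have h : ∀ l, ∑ j, S.P i j x * (1 / 2 * S.q j l x * D l ξ x)
      = (1 / 2 * D l ξ x) * (if i = l then 1 else 0) := by
    intro l
    rw [← S.P_q i l x, Finset.mul_sum]
    exact Finset.sum_congr rfl fun j _ => by ring
  rw [Finset.sum_congr rfl fun l _ => h l]
  simp

theorem Fl_add_mul (hξ : ContDiff ℝ ∞ ξ) (hη : ContDiff ℝ ∞ η) (t : ℝ) (i : Fin k) (x : Eu k) :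
    S.Fl (fun y => ξ y + t * η y) i x = S.Fl ξ i x + t * S.Fl η i x := by
  simp only [Fl, Finset.mul_sum]
  rw [← Finset.sum_add_distrib]
  refine Finset.sum_congr rfl fun j _ => ?_
  rw [D_add hξ (contDiff_const.mul hη), D_mul contDiff_const hη, D_const]
  ring

/-- the energy density -/
def en (ξ η : Eu k → ℝ) (x : Eu k) : ℝ := ∑ i, S.Fl ξ i x * D i η x

theorem en_eq (ξ η : Eu k → ℝ) (x : Eu k) :
    S.en ξ η x = 2 * ∑ i, ∑ j, S.P i j x * S.Fl ξ i x * S.Fl η j x := by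
  unfold en
  rw [Finset.mul_sum]
  refine Finset.sum_congr rfl fun i _ => ?_
  have h : D i η x = 2 * ∑ j, S.P i j x * S.Fl η j x := by rw [S.P_Fl]; ring
  rw [h, Finset.mul_sum, Finset.mul_sum, Finset.mul_sum]
  exact Finset.sum_congr rfl fun j _ => by ring

theorem en_symm (ξ η : Eu k → ℝ) (x : Eu k) : S.en ξ η x = S.en η ξ x := by
  rw [en_eq, en_eq, Finset.sum_comm]
  congr 1
  exact Finset.sum_congr rfl fun i _ => Finset.sum_congr rfl fun j _ => by
    rw [S.P_symm]; ring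

theorem en_lower (ξ : Eu k → ℝ) (x : Eu k) :
    2 * S.δ * ∑ i, S.Fl ξ i x ^ 2 ≤ S.en ξ ξ x := by
  rw [en_eq]
  have := S.conc x fun i => S.Fl ξ i x
  have h2 : ∑ i, ∑ j, S.P i j x * S.Fl ξ i x * S.Fl ξ j x
      = ∑ i, ∑ j, (- D i (D j S.w) x) * S.Fl ξ i x * S.Fl ξ j x := rfl
  rw [h2]
  linarith

theorem en_nonneg (ξ : Eu k → ℝ) (x : Eu k) : 0 ≤ S.en ξ ξ x := by
  refine le_trans ?_ (S.en_lower ξ x)
  have := S.hδ
  positivity

theorem en_expand (hξ : ContDiff ℝ ∞ ξ) (hη : ContDiff ℝ ∞ η) (t : ℝ) (x : Eu k) :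
    S.en (fun y => ξ y + t * η y) (fun y => ξ y + t * η y) x
      = S.en ξ ξ x + 2 * t * S.en ξ η x + t ^ 2 * S.en η η x := by
  have hD : ∀ i, D i (fun y => ξ y + t * η y) x = D i ξ x + t * D i η x := by
    intro i
    rw [D_add hξ (contDiff_const.mul hη), D_mul contDiff_const hη, D_const]
    ring
  have h1 : S.en (fun y => ξ y + t * η y) (fun y => ξ y + t * η y) x
      = S.en ξ ξ x + t * S.en ξ η x + t * S.en η ξ x + t ^ 2 * S.en η η x := by
    simp only [en, Finset.mul_sum]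
    rw [← Finset.sum_add_distrib, ← Finset.sum_add_distrib, ← Finset.sum_add_distrib]
    refine Finset.sum_congr rfl fun i _ => ?_
    rw [S.Fl_add_mul hξ hη, hD]
    ring
  rw [h1, S.en_symm η ξ]
  ring

theorem en_test (hξ : ContDiff ℝ ∞ ξ) (hη : Test η) : Test (S.en ξ η) :=
  Test.sum _ fun i => Test.mul' (S.Fl_contDiff hξ i) (Test.D hη i)

/-- the gradient is controlled by the field -/
theorem grad_le (ξ : Eu k → ℝ) (x : Eu k) :
    ∑ i, D i ξ x ^ 2 ≤ 4 * (∑ i, ∑ j, S.P i j x ^ 2) * ∑ i, S.Fl ξ i x ^ 2 := by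
  have h : ∀ i, D i ξ x ^ 2 ≤ 4 * ((∑ j, S.P i j x ^ 2) * ∑ j, S.Fl ξ j x ^ 2) := by
    intro i
    have h0 : D i ξ x = 2 * ∑ j, S.P i j x * S.Fl ξ j x := by rw [S.P_Fl]; ring
    rw [h0, mul_pow]
    have := Finset.sum_mul_sq_le_sq_mul_sq Finset.univ (fun j => S.P i j x) fun j => S.Fl ξ j x
    linarith
  refine (Finset.sum_le_sum fun i _ => h i).trans (le_of_eq ?_)
  rw [← Finset.mul_sum, ← Finset.sum_mul]
  ring

end Dat

end

end Vale.Agent.P262.H853
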