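import Vale.Agent.P262.H853.Resid

/-! P262, helper853: local bounds. -/

namespace Vale.Agent.P262.H853

open MeasureTheory Filter Topology
open scoped ContDiff ENNReal
open Vale.Agent.P363.R.Sob

noncomputable section

variable {k J : ℕ} (S : Dat k J) (A : Fam k)

/-- a compactly supported function is dominated by a positive one -/
theorem dom_bound {f g : Eu k → ℝ} (hf : Continuous f) (hfc : HasCompactSupport f)
    (hg : Continuous g) (hg0 : ∀ x, 0 < g x) : ∃ C : ℝ, 0 ≤ C ∧ ∀ x, f x ≤ C * g x := by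
  have h1 : Continuous (fun x => f x / g x) := hf.div hg fun x => (hg0 x).ne'
  have h2 : HasCompactSupport (fun x => f x / g x) := by
    have : (fun x => f x / g x) = fun x => f x * (g x)⁻¹ := by ext x; exact div_eq_mul_inv _ _
    rw [this]
    exact hfc.mul_right
  obtain ⟨C, hC⟩ := h2.exists_bound_of_continuous h1
  refine ⟨max C 0, le_max_right _ _, fun x => ?_⟩
  have h3 : f x / g x ≤ max C 0 := (le_abs_self _).trans ((hC x).trans (le_max_left _ _))
  rwa [div_le_iff₀ (hg0 x)] at h3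

theorem Test.sq_int {f : Eu k → ℝ} (hf : Test f) : Integrable (fun x => f x ^ 2) := by
  have h := Test.integrable (hf.mul hf.1)
  exact h.congr (Eventually.of_forall fun x => by ring)

namespace Dat

variable {χ G ξ η : Eu k → ℝ}

theorem loc_bound (hχ : Test χ) : ∃ C : ℝ, 0 ≤ C ∧ ∀ ξ, Test ξ →
    ∫ x, (χ x * ξ x) ^ 2 ≤ C * S.Qf ξ ∧ ∀ j, ∫ x, (χ x * D j ξ x) ^ 2 ≤ C * S.Qf ξ := by
  have hχ2 : Test (fun x => χ x * χ x) := hχ.mul hχ.1
  have hP : Test (fun x => (χ x * χ x) * (4 * (∑ i, ∑ j, S.P i j x ^ 2))) :=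
    hχ2.mul (contDiff_const.mul (ContDiff.sum fun i _ => ContDiff.sum fun j _ =>
      (S.P_contDiff i j).pow 2))
  obtain ⟨C1, hC1, h1⟩ := dom_bound hχ2.1.continuous hχ2.2
    (S.a_contDiff.mul S.rho_contDiff).continuous fun x => mul_pos (S.a_pos x) (S.rho_pos x)
  obtain ⟨C2, hC2, h2⟩ := dom_bound hP.1.continuous hP.2
    (contDiff_const (c := 2 * S.δ) |>.mul S.rho_contDiff).continuous
    fun x => mul_pos (mul_pos two_pos S.hδ) (S.rho_pos x)
  refine ⟨max C1 C2, le_trans hC1 (le_max_left _ _), fun ξ hξ => ⟨?_, fun j => ?_⟩⟩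
  · unfold Qf
    rw [← integral_const_mul]
    refine integral_mono_of_nonneg (Eventually.of_forall fun x => sq_nonneg _)
      ((S.Q_int hξ).const_mul _) (Eventually.of_forall fun x => ?_)
    have e1 := h1 x
    have e2 := S.en_nonneg ξ x
    have e3 := S.rho_pos x
    have e4 := S.a_pos x
    have e5 : (χ x * ξ x) ^ 2 ≤ C1 * (S.a x * S.rho x) * ξ x ^ 2 := by
      calc (χ x * ξ x) ^ 2 = (χ x * χ x) * ξ x ^ 2 := by ring
        _ ≤ _ := mul_le_mul_of_nonneg_right e1 (sq_nonneg _)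
    refine e5.trans ?_
    calc C1 * (S.a x * S.rho x) * ξ x ^ 2 = C1 * ((S.a x * ξ x ^ 2) * S.rho x) := by ring
      _ ≤ max C1 C2 * ((S.a x * ξ x ^ 2 + S.en ξ ξ x) * S.rho x) := by
        apply mul_le_mul (le_max_left _ _) _ (by positivity) (le_trans hC1 (le_max_left _ _))
        apply mul_le_mul_of_nonneg_right _ e3.le
        linarith
  · unfold Qf
    rw [← integral_const_mul]
    refine integral_mono_of_nonneg (Eventually.of_forall fun x => sq_nonneg _)
      ((S.Q_int hξ).const_mul _) (Eventually.of_forall fun x => ?_)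
    have e1 := h2 x
    have e2 := S.en_lower ξ x
    have e3 := S.rho_pos x
    have e4 := S.a_pos x
    have e6 := S.grad_le ξ x
    have e7 : D j ξ x ^ 2 ≤ ∑ i, D i ξ x ^ 2 :=
      Finset.single_le_sum (f := fun i => D i ξ x ^ 2) (fun i _ => sq_nonneg _)
        (Finset.mem_univ j)
    have e8 : 0 ≤ ∑ i, S.Fl ξ i x ^ 2 := Finset.sum_nonneg fun i _ => sq_nonneg _
    have e9 : (χ x * D j ξ x) ^ 2 ≤ C2 * (2 * S.δ * S.rho x) * ∑ i, S.Fl ξ i x ^ 2 := by
      calc (χ x * D j ξ x) ^ 2 = (χ x * χ x) * D j ξ x ^ 2 := by ring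
        _ ≤ (χ x * χ x) * (4 * (∑ i, ∑ j, S.P i j x ^ 2) * ∑ i, S.Fl ξ i x ^ 2) :=
          mul_le_mul_of_nonneg_left (e7.trans e6) (mul_self_nonneg _)
        _ = ((χ x * χ x) * (4 * (∑ i, ∑ j, S.P i j x ^ 2))) * ∑ i, S.Fl ξ i x ^ 2 := by ring
        _ ≤ _ := mul_le_mul_of_nonneg_right e1 e8
    refine e9.trans ?_
    calc C2 * (2 * S.δ * S.rho x) * ∑ i, S.Fl ξ i x ^ 2
        = C2 * ((2 * S.δ * ∑ i, S.Fl ξ i x ^ 2) * S.rho x) := by ring
      _ ≤ C2 * (S.en ξ ξ x * S.rho x) :=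
        mul_le_mul_of_nonneg_left (mul_le_mul_of_nonneg_right e2 e3.le) hC2
      _ ≤ max C1 C2 * ((S.a x * ξ x ^ 2 + S.en ξ ξ x) * S.rho x) := by
        have e10 := S.en_nonneg ξ x
        apply mul_le_mul (le_max_right _ _) _ (by positivity) (le_trans hC1 (le_max_left _ _))
        apply mul_le_mul_of_nonneg_right _ e3.le
        have : 0 ≤ S.a x * ξ x ^ 2 := by positivity
        linarith

/-- the quadratic form of the kernels is locally bounded -/
theorem K_bound (R : ℝ) {t : ℝ} (ht : 0 < t) (ht1 : t ≤ 1) :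
    ∃ C : ℝ, 0 ≤ C ∧ ∀ x, ‖x‖ ≤ R → S.Qf (A.K t x) ≤ C := by
  set Φ : Eu k × Eu k → ℝ := fun p => (S.a p.2 * A.K t p.1 p.2 ^ 2
    + ∑ i, (∑ j, (1 / 2 * S.q i j p.2) * D j (A.K t p.1) p.2) * D i (A.K t p.1) p.2)
    * S.rho p.2 with hΦ
  have hc : Continuous Φ := by
    have h1 := A.K_cont ht
    have h2 := fun i => A.DK_cont i ht
    have h3 : Continuous fun p : Eu k × Eu k => S.a p.2 := S.a_contDiff.continuous.comp continuous_snd
    have h4 : Continuous fun p : Eu k × Eu k => S.rho p.2 :=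
      S.rho_contDiff.continuous.comp continuous_snd
    have h5 : ∀ i j, Continuous fun p : Eu k × Eu k => S.q i j p.2 := fun i j =>
      (S.q_contDiff i j).continuous.comp continuous_snd
    refine Continuous.mul ((h3.mul (h1.pow 2)).add ?_) h4
    refine continuous_finsetSum _ fun i _ => Continuous.mul ?_ (h2 i)
    exact continuous_finsetSum _ fun j _ => (continuous_const.mul (h5 i j)).mul (h2 j)
  have hK : IsCompact (Metric.closedBall (0 : Eu k) R ×ˢ Metric.closedBall (0 : Eu k) (R + 3)) :=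
    (isCompact_closedBall _ _).prod (isCompact_closedBall _ _)
  obtain ⟨C, hC⟩ := hK.exists_bound_of_continuousOn hc.continuousOn
  refine ⟨max C 0 * (volume (Metric.closedBall (0 : Eu k) (R + 3))).toReal,
    mul_nonneg (le_max_right _ _) ENNReal.toReal_nonneg, fun x hx => ?_⟩
  have hfin : volume (Metric.closedBall (0 : Eu k) (R + 3)) < ⊤ :=
    (isCompact_closedBall _ _).measure_lt_top
  have hint : Integrable ((Metric.closedBall (0 : Eu k) (R + 3)).indicator fun _ => max C 0) :=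
    (integrable_indicator_iff Metric.isClosed_closedBall.measurableSet).2
      (integrableOn_const (hs := hfin.ne))
  have hval : ∫ y, (Metric.closedBall (0 : Eu k) (R + 3)).indicator (fun _ => max C 0) y
      = max C 0 * (volume (Metric.closedBall (0 : Eu k) (R + 3))).toReal := by
    rw [integral_indicator Metric.isClosed_closedBall.measurableSet, setIntegral_const,
      smul_eq_mul, measureReal_def]
    ring
  rw [← hval]
  unfold Qf
  refine integral_mono (S.Q_int (A.K_test x ht)) hint fun y => ?_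
  by_cases hy : y ∈ Metric.closedBall (0 : Eu k) (R + 3)
  · rw [Set.indicator_of_mem hy]
    have h1 := hC (x, y) ⟨by simpa using hx, hy⟩
    have h2 : (S.a y * A.K t x y ^ 2 + S.en (A.K t x) (A.K t x) y) * S.rho y = Φ (x, y) := rfl
    rw [h2]
    exact (le_abs_self _).trans (h1.trans (le_max_left _ _))
  · rw [Set.indicator_of_notMem hy]
    have hy' : R + 3 < ‖y‖ := by simpa using hy
    have hyx : 2 < ‖y - x‖ := by
      have : ‖y‖ ≤ ‖y - x‖ + ‖x‖ := by
        calc ‖y‖ = ‖(y - x) + x‖ := by congr 1; abel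
          _ ≤ _ := norm_add_le _ _
      linarith
    have hK0 : ∀ᶠ z in 𝓝 y, A.K t x z = 0 := by
      have : ∀ᶠ z in 𝓝 y, 2 < ‖z - x‖ :=
        (isOpen_lt continuous_const (by fun_prop : Continuous fun z : Eu k => ‖z - x‖)).mem_nhds
          hyx
      filter_upwards [this] with z hz
      exact A.K_supp x z ht (by linarith)
    have h1 : A.K t x y = 0 := hK0.self_of_nhds
    have h2 : ∀ i, D i (A.K t x) y = 0 := fun i => by
      have : A.K t x =ᶠ[𝓝 y] fun _ => 0 := hK0
      rw [D_congr_nhds this, D_const]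
    unfold en
    simp [h1, h2]

/-- the quadratic part is bounded by the functional -/
theorem Qf_le (hG : Bd G) (hξ : Test ξ) :
    S.Qf ξ ≤ 2 * S.Jf G ξ + 2 * ∫ x, S.a x * (G x * G x) * S.rho x := by
  unfold Qf Jf
  rw [← integral_const_mul, ← integral_const_mul, ← integral_add ((S.J_int hG hξ).const_mul _)
    ((S.arho_bd (hG.mul hG)).const_mul _)]
  refine integral_mono (S.Q_int hξ) (((S.J_int hG hξ).const_mul _).add
    ((S.arho_bd (hG.mul hG)).const_mul _)) fun x => ?_
  simp only [Pi.add_apply]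
  have h1 := S.a_pos x
  have h2 := S.rho_pos x
  have h3 := S.en_nonneg ξ x
  have h4 : S.a x * ξ x ^ 2 ≤ S.a x * (2 * (ξ x - G x) ^ 2 + 2 * (G x * G x)) :=
    mul_le_mul_of_nonneg_left (by nlinarith [sq_nonneg (ξ x - 2 * G x)]) h1.le
  have h5 : (S.a x * ξ x ^ 2 + S.en ξ ξ x) * S.rho x
      ≤ (S.a x * (2 * (ξ x - G x) ^ 2 + 2 * (G x * G x)) + 2 * S.en ξ ξ x) * S.rho x :=
    mul_le_mul_of_nonneg_right (by linarith) h2.le
  refine h5.trans (le_of_eq ?_)
  ring

end Dat

end

end Vale.Agent.P262.H853
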