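import Vale.Agent.P262.H853.Final
import Vale.Agent.P262.H853.FamInst

/-! P262, helper853: step 4 of note 6792, unconditional form. -/

namespace Vale.Agent.P262.H853

open MeasureTheory Filter Topology
open scoped ContDiff ENNReal
open Vale.Agent.P363.R.Sob

noncomputable section

variable {k J : ℕ}

/-- LOCALISATION LEMMA (step 4 of note 6792) -/
theorem loc_main (S : Dat k J) {G : Eu k → ℝ} (hG : Dat.Bd G)
    (hG1 : ∃ C, ∀ x i, |D i G x| ≤ C) {η : ℝ} (hη : 0 < η) :
    ∃ ξ, Test ξ ∧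
      S.Jf G ξ ≤ 2 * (∫ x, S.a x * (∑ i, D i G x ^ 2) * S.rho x) + η :=
  S.loc (fam k) hG hG1 hη

end

end Vale.Agent.P262.H853
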