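import Vale.Agent.P262.H853.Inv

/-! P262, helper853: near-minimisers of the quadratic functional. -/

namespace Vale.Agent.P262.H853

open MeasureTheory Filter Topology
open scoped ContDiff ENNReal
open Vale.Agent.P363.R.Sob

noncomputable section

/-- near-minimisers satisfy the Euler-Lagrange equation approximately -/
theorem near_min {α : Type*} (T : (α → ℝ) → Prop) (J Q : (α → ℝ) → ℝ)
    (R : (α → ℝ) → (α → ℝ) → ℝ) (h0 : T fun _ => 0)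
    (hT : ∀ ξ η : α → ℝ, ∀ t : ℝ, T ξ → T η → T (fun x => ξ x + t * η x))
    (hJ0 : ∀ ξ, T ξ → 0 ≤ J ξ)
    (hexp : ∀ ξ η : α → ℝ, ∀ t : ℝ, T ξ → T η →
      J (fun x => ξ x + t * η x) = J ξ + 2 * t * R ξ η + t ^ 2 * Q η) {ε : ℝ} (hε : 0 < ε) :
    ∃ ξ, T ξ ∧ J ξ ≤ J (fun _ => 0) + ε ∧ ∀ η, T η → R ξ η ^ 2 ≤ ε * Q η := by
  set I : Set ℝ := J '' {ξ | T ξ} with hI
  have hne : I.Nonempty := ⟨_, ⟨_, h0, rfl⟩⟩
  have hbd : BddBelow I := ⟨0, by rintro _ ⟨ξ, hξ, rfl⟩; exact hJ0 ξ hξ⟩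
  obtain ⟨_, ⟨ξ, hξ, rfl⟩, h1⟩ := exists_lt_of_csInf_lt hne (show sInf I < sInf I + ε by linarith)
  refine ⟨ξ, hξ, ?_, fun η hη => ?_⟩
  · have := csInf_le hbd ⟨_, h0, rfl⟩
    linarith
  · have h2 : ∀ t : ℝ, 0 ≤ Q η * (t * t) + 2 * R ξ η * t + ε := by
      intro t
      have := csInf_le hbd ⟨_, hT ξ η t hξ hη, rfl⟩
      rw [hexp ξ η t hξ hη] at this
      nlinarith
    have h3 := discrim_le_zero h2
    unfold discrim at h3
    nlinarith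

end

end Vale.Agent.P262.H853
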