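import Vale.Agent.P262.H853.Bochner

/-! P262, helper853: the data of step 4 of note 6792 and the pointwise inequality. -/

namespace Vale.Agent.P262.H853

open MeasureTheory Filter Topology Matrix
open scoped ContDiff ENNReal Matrix
open Vale.Agent.P363.R.Sob

noncomputable section

variable {k J : ℕ}

/-! ### linear algebra -/

open scoped MatrixOrder Matrix.Norms.L2Operator in
theorem exists_sqrt (A : Matrix (Fin k) (Fin k) ℝ) (hA : A.PosSemidef) :
    ∃ B : Matrix (Fin k) (Fin k) ℝ, A = Bᵀ * B := by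
  obtain ⟨B, hB⟩ := CStarAlgebra.nonneg_iff_eq_star_mul_self.mp hA.nonneg
  refine ⟨B, ?_⟩
  rw [hB, star_eq_conjTranspose, Matrix.conjTranspose_eq_transpose_of_trivial]

theorem posDef_of {P : Fin k → Fin k → ℝ} (hs : ∀ i j, P i j = P j i) {δ : ℝ} (hδ : 0 < δ)
    (h : ∀ c : Fin k → ℝ, δ * ∑ i, c i ^ 2 ≤ ∑ i, ∑ j, P i j * c i * c j) :
    (Matrix.of P).PosDef := by
  rw [posDef_iff_dotProduct_mulVec]
  refine ⟨?_, fun {x} hx => ?_⟩
  · ext i j
    simp only [conjTranspose_apply, of_apply, star_trivial]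
    exact hs j i
  · have h1 : star x ⬝ᵥ (Matrix.of P *ᵥ x) = ∑ i, ∑ j, P i j * x i * x j := by
      simp only [dotProduct, mulVec, star_trivial, Finset.mul_sum, of_apply]
      exact Finset.sum_congr rfl fun i _ => Finset.sum_congr rfl fun j _ => by ring
    rw [h1]
    refine lt_of_lt_of_le (mul_pos hδ ?_) (h x)
    obtain ⟨i, hi⟩ := Function.ne_iff.1 hx
    exact Finset.sum_pos' (fun i _ => sq_nonneg _) ⟨i, Finset.mem_univ _, by
      have : x i ≠ 0 := hi
      positivity⟩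

/-- `tr (M * M) ≥ 0` when `P M` is symmetric, `P` positive definite -/
theorem trace_sq_nonneg {P M : Matrix (Fin k) (Fin k) ℝ} (hP : P.PosDef)
    (hs : (P * M)ᵀ = P * M) : 0 ≤ (M * M).trace := by
  obtain ⟨B, hB⟩ := exists_sqrt P hP.posSemidef
  have hpos : 0 < P.det := hP.det_pos
  have hBne : B.det ≠ 0 := by
    intro h0
    rw [hB, Matrix.det_mul, h0] at hpos
    simp at hpos
  have hBu : IsUnit B.det := isUnit_iff_ne_zero.mpr hBne
  have hBtu : IsUnit Bᵀ.det := by rwa [Matrix.det_transpose]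
  have e1 : B⁻¹ * B = 1 := Matrix.nonsing_inv_mul _ hBu
  have e2 : B * B⁻¹ = 1 := Matrix.mul_nonsing_inv _ hBu
  have e3 : (Bᵀ)⁻¹ * Bᵀ = 1 := Matrix.nonsing_inv_mul _ hBtu
  set S := B * M * B⁻¹ with hS
  have h1 : Bᵀ * B * M = Mᵀ * (Bᵀ * B) := by
    have : (P * M)ᵀ = Mᵀ * P := by
      rw [Matrix.transpose_mul]
      congr 1
      rw [hB, Matrix.transpose_mul, Matrix.transpose_transpose]
    rw [hs, hB] at this
    exact this
  have hSt : Sᵀ = S := by
    have h2 : B * M = (Bᵀ)⁻¹ * Mᵀ * Bᵀ * B := by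
      calc B * M = ((Bᵀ)⁻¹ * Bᵀ) * (B * M) := by rw [e3, Matrix.one_mul]
        _ = (Bᵀ)⁻¹ * (Bᵀ * B * M) := by simp only [Matrix.mul_assoc]
        _ = (Bᵀ)⁻¹ * Mᵀ * Bᵀ * B := by rw [h1]; simp only [Matrix.mul_assoc]
    have h3 : S = (Bᵀ)⁻¹ * Mᵀ * Bᵀ := by
      rw [hS, h2, Matrix.mul_assoc _ B, e2, Matrix.mul_one]
    have h5 : Sᵀ = (Bᵀ)⁻¹ * Mᵀ * Bᵀ := by
      rw [hS, Matrix.transpose_mul, Matrix.transpose_mul, Matrix.transpose_nonsing_inv,
        ← Matrix.mul_assoc]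
    rw [h5, h3]
  have h4 : (M * M).trace = (S * Sᵀ).trace := by
    rw [hSt]
    have : S * S = B * (M * M * B⁻¹) := by
      rw [hS]
      calc B * M * B⁻¹ * (B * M * B⁻¹) = B * M * (B⁻¹ * B) * (M * B⁻¹) := by
            simp only [Matrix.mul_assoc]
        _ = B * (M * M * B⁻¹) := by rw [e1, Matrix.mul_one]; simp only [Matrix.mul_assoc]
    rw [this, Matrix.trace_mul_comm B (M * M * B⁻¹), Matrix.mul_assoc (M * M), e1,
      Matrix.mul_one]
  rw [h4, Matrix.trace]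
  refine Finset.sum_nonneg fun i _ => ?_
  rw [Matrix.diag_apply, Matrix.mul_apply]
  exact Finset.sum_nonneg fun j _ => by rw [Matrix.transpose_apply]; exact mul_self_nonneg _

/-! ### the data -/

/-- a smooth strongly concave function and a linear contraction -/
structure Dat (k J : ℕ) where
  w : Eu k → ℝ
  hw : ContDiff ℝ ∞ w
  δ : ℝ
  hδ : 0 < δ
  conc : ∀ (x : Eu k) (c : Fin k → ℝ),
    δ * ∑ i, c i ^ 2 ≤ ∑ i, ∑ j, (- D i (D j w) x) * c i * c j
  A : Eu k →L[ℝ] Eu J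
  hA : ∀ x, ‖A x‖ ≤ ‖x‖

/-- minus the Hessian -/
def Dat.P (S : Dat k J) (i j : Fin k) (x : Eu k) : ℝ := - D i (D j S.w) x

/-- `a ^ 2` -/
def Dat.s (S : Dat k J) (x : Eu k) : ℝ := 100 + S.w x ^ 2 + ‖S.A x‖ ^ 2

/-- the slowly varying weight -/
def Dat.a (S : Dat k J) (x : Eu k) : ℝ := Real.sqrt (S.s x)

/-- its inverse -/
def Dat.om (S : Dat k J) (x : Eu k) : ℝ := (Real.sqrt (S.s x))⁻¹

/-- the potential -/
def Dat.U (S : Dat k J) (x : Eu k) : ℝ := (S.w x ^ 2 + ‖x‖ ^ 2) / 2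

/-- the density -/
def Dat.rho (S : Dat k J) (x : Eu k) : ℝ := Real.exp (- S.U x)

theorem normsq_contDiff : ContDiff ℝ ∞ (fun x : Eu k => ‖x‖ ^ 2) := contDiff_norm_sq ℝ

theorem D_normsq (i : Fin k) (x : Eu k) : D i (fun x : Eu k => ‖x‖ ^ 2) x = 2 * x i := by
  have h := (hasStrictFDerivAt_norm_sq x).hasFDerivAt
  simp only [D]
  rw [h.fderiv]
  simp [e, EuclideanSpace.inner_single_right]

theorem coord_contDiff (j : Fin k) : ContDiff ℝ ∞ (fun x : Eu k => x j) := by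
  fun_prop

theorem D_coord (i j : Fin k) (x : Eu k) : D i (fun x : Eu k => x j) x = if i = j then 1 else 0 := by
  have h : HasFDerivAt (fun x : Eu k => x j) (EuclideanSpace.proj j : Eu k →L[ℝ] ℝ) x :=
    (EuclideanSpace.proj j : Eu k →L[ℝ] ℝ).hasFDerivAt
  simp only [D]
  rw [h.fderiv]
  simp [e, eq_comm]

theorem Asq_contDiff (A : Eu k →L[ℝ] Eu J) : ContDiff ℝ ∞ (fun x : Eu k => ‖A x‖ ^ 2) :=
  (contDiff_norm_sq ℝ).comp A.contDiff

theorem Ain_contDiff (A : Eu k →L[ℝ] Eu J) (v : Eu J) :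
    ContDiff ℝ ∞ (fun x : Eu k => inner ℝ (A x) v) :=
  A.contDiff.inner ℝ contDiff_const

theorem D_Asq (A : Eu k →L[ℝ] Eu J) (i : Fin k) (x : Eu k) :
    D i (fun x : Eu k => ‖A x‖ ^ 2) x = 2 * inner ℝ (A x) (A (e i)) := by
  have h := (A.hasFDerivAt (x := x)).norm_sq
  simp only [D]
  rw [h.fderiv]
  simp

theorem D_Ain (A : Eu k →L[ℝ] Eu J) (v : Eu J) (i : Fin k) (x : Eu k) :
    D i (fun x : Eu k => inner ℝ (A x) v) x = inner ℝ (A (e i)) v := by
  have h := (A.hasFDerivAt (x := x)).inner ℝ (hasFDerivAt_const v x)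
  simp only [D]
  rw [h.fderiv]
  simp

variable (S : Dat k J)

namespace Dat

theorem s_contDiff : ContDiff ℝ ∞ S.s := (contDiff_const.add (S.hw.pow 2)).add (Asq_contDiff S.A)

theorem s_ge (x : Eu k) : 100 ≤ S.s x := by
  unfold s; nlinarith [sq_nonneg (S.w x), sq_nonneg ‖S.A x‖]

theorem s_pos (x : Eu k) : 0 < S.s x := by linarith [S.s_ge x]

theorem U_contDiff : ContDiff ℝ ∞ S.U := ((S.hw.pow 2).add normsq_contDiff).div_const 2

theorem om_contDiff : ContDiff ℝ ∞ S.om :=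
  (S.s_contDiff.sqrt fun x => (S.s_pos x).ne').inv fun x => (Real.sqrt_pos.2 (S.s_pos x)).ne'

theorem om_pos (x : Eu k) : 0 < S.om x := inv_pos.2 (Real.sqrt_pos.2 (S.s_pos x))

theorem om_sq (x : Eu k) : S.om x ^ 2 * S.s x = 1 := by
  unfold om
  rw [inv_pow, Real.sq_sqrt (S.s_pos x).le]
  exact inv_mul_cancel₀ (S.s_pos x).ne'

theorem om_le (x : Eu k) : S.om x ≤ 1 / 10 := by
  have h1 := S.om_sq x
  have h2 := S.s_ge x
  have h3 := S.om_pos x
  by_contra h
  push Not at h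
  nlinarith [mul_pos h3 h3]

theorem a_mul_om (x : Eu k) : S.a x * S.om x = 1 := by
  unfold a om
  exact mul_inv_cancel₀ (Real.sqrt_pos.2 (S.s_pos x)).ne'

theorem D_s (i : Fin k) (x : Eu k) :
    D i S.s x = 2 * (S.w x * D i S.w x + inner ℝ (S.A x) (S.A (e i))) := by
  have h1 : D i S.s x = D i (fun x => 100 + S.w x ^ 2) x + D i (fun x => ‖S.A x‖ ^ 2) x :=
    D_add (contDiff_const.add (S.hw.pow 2)) (Asq_contDiff S.A)
  have h2 : D i (fun x => 100 + S.w x ^ 2) x = 0 + D i (fun x => S.w x ^ 2) x := by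
    rw [← D_const (k := k) (x := x) (i := i) 100, ← D_add contDiff_const (S.hw.pow 2)]
  have h3 : D i (fun x => S.w x ^ 2) x = 2 * (S.w x * D i S.w x) := by
    have : (fun x => S.w x ^ 2) = fun x => S.w x * S.w x := by ext; ring
    rw [this, D_mul S.hw S.hw]; ring
  rw [h1, h2, h3, D_Asq]; ring

theorem DD_s (i j : Fin k) (x : Eu k) :
    D i (D j S.s) x = 2 * (D i S.w x * D j S.w x + S.w x * D i (D j S.w) x
      + inner ℝ (S.A (e i)) (S.A (e j))) := by
  have h0 : D j S.s = fun x => 2 * (S.w x * D j S.w x + inner ℝ (S.A x) (S.A (e j))) := by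
    ext x; exact S.D_s j x
  have c1 : ContDiff ℝ ∞ (fun x => S.w x * D j S.w x) := S.hw.mul (D_contDiff S.hw j)
  have c2 : ContDiff ℝ ∞ (fun x => inner ℝ (S.A x) (S.A (e j))) := Ain_contDiff _ _
  rw [h0, D_mul contDiff_const (c1.add c2), D_const, D_add c1 c2, D_mul S.hw (D_contDiff S.hw j),
    D_Ain]
  ring

theorem D_om (i : Fin k) (x : Eu k) : D i S.om x = - (1 / 2) * S.om x ^ 3 * D i S.s x := by
  have hs := S.s_pos x
  have hq : 0 < Real.sqrt (S.s x) := Real.sqrt_pos.2 hs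
  have h1 : HasFDerivAt S.s (fderiv ℝ S.s x) x := (dif S.s_contDiff).hasFDerivAt
  have h2 : HasDerivAt (fun t : ℝ => (Real.sqrt t)⁻¹)
      (-(1 / (2 * Real.sqrt (S.s x))) / (Real.sqrt (S.s x)) ^ 2) (S.s x) :=
    (Real.hasDerivAt_sqrt hs.ne').inv hq.ne'
  have h3 := h2.comp_hasFDerivAt x h1
  have h4 : S.om = (fun t : ℝ => (Real.sqrt t)⁻¹) ∘ S.s := rfl
  simp only [D]
  rw [h4, h3.fderiv]
  simp only [_root_.smul_apply, smul_eq_mul, Function.comp_apply]
  field_simp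

theorem DD_om (i j : Fin k) (x : Eu k) :
    D i (D j S.om) x = 3 / 4 * S.om x ^ 5 * D i S.s x * D j S.s x
      - 1 / 2 * S.om x ^ 3 * D i (D j S.s) x := by
  have h0 : D j S.om = fun x => - (1 / 2) * (S.om x * (S.om x * S.om x)) * D j S.s x := by
    ext x; rw [S.D_om j x]; ring
  have ho := S.om_contDiff
  have hd := D_contDiff S.s_contDiff j
  rw [h0, D_mul (contDiff_const.mul (ho.mul (ho.mul ho))) hd,
    D_mul contDiff_const (ho.mul (ho.mul ho)), D_const, D_mul ho (ho.mul ho), D_mul ho ho,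
    S.D_om i x]
  ring

theorem D_U (i : Fin k) (x : Eu k) : D i S.U x = S.w x * D i S.w x + x i := by
  have h0 : S.U = fun x => 1 / 2 * (S.w x * S.w x + ‖x‖ ^ 2) := by
    ext x; unfold U; ring
  rw [h0, D_mul contDiff_const ((S.hw.mul S.hw).add normsq_contDiff), D_const,
    D_add (S.hw.mul S.hw) normsq_contDiff, D_mul S.hw S.hw, D_normsq]
  ring

theorem DD_U (i j : Fin k) (x : Eu k) :
    D i (D j S.U) x = D i S.w x * D j S.w x + S.w x * D i (D j S.w) x
      + if i = j then 1 else 0 := by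
  have h0 : D j S.U = fun x => S.w x * D j S.w x + x j := by ext x; exact S.D_U j x
  rw [h0, D_add (S.hw.mul (D_contDiff S.hw j)) (coord_contDiff j),
    D_mul S.hw (D_contDiff S.hw j), D_coord]

end Dat

end

end Vale.Agent.P262.H853
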