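import Vale.Agent.P262.H853.Point
import Vale.Agent.P262.H853.Arith

/-! P262, helper853: pointwise estimate of the Bochner integrand. -/

namespace Vale.Agent.P262.H853

open MeasureTheory Filter Topology Matrix
open scoped ContDiff ENNReal Matrix
open Vale.Agent.P363.R.Sob

noncomputable section

variable {k J : ℕ} (S : Dat k J)

/-- vector with given coordinates -/
def vec (c : Fin k → ℝ) : Eu k := ∑ i, c i • e i

theorem vec_apply (c : Fin k → ℝ) (i : Fin k) : vec c i = c i := by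
  simp [vec, e, Finset.sum_apply, Pi.single_apply]

theorem norm_vec_sq (c : Fin k → ℝ) : ‖vec c‖ ^ 2 = ∑ i, c i ^ 2 := by
  rw [EuclideanSpace.norm_sq_eq]
  exact Finset.sum_congr rfl fun i _ => by rw [vec_apply, Real.norm_eq_abs, sq_abs]

theorem sum_inner_A (A : Eu k →L[ℝ] Eu J) (v : Eu J) (c : Fin k → ℝ) :
    ∑ i, c i * inner ℝ v (A (e i)) = inner ℝ v (A (vec c)) := by
  rw [vec, map_sum, inner_sum]
  refine Finset.sum_congr rfl fun i _ => ?_
  rw [map_smul, real_inner_smul_right]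

theorem sum_sum_inner_A (A : Eu k →L[ℝ] Eu J) (c : Fin k → ℝ) :
    ∑ i, ∑ j, inner ℝ (A (e i)) (A (e j)) * c i * c j = ‖A (vec c)‖ ^ 2 := by
  rw [← real_inner_self_eq_norm_sq]
  have h1 : ∀ i, ∑ j, inner ℝ (A (e i)) (A (e j)) * c i * c j
      = c i * inner ℝ (A (e i)) (A (vec c)) := by
    intro i
    rw [← sum_inner_A A (A (e i)) c, Finset.mul_sum]
    exact Finset.sum_congr rfl fun j _ => by ring
  rw [Finset.sum_congr rfl fun i _ => h1 i]
  rw [← sum_inner_A A (A (vec c)) c]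
  exact Finset.sum_congr rfl fun i _ => by rw [real_inner_comm]

namespace Dat

theorem sum_D_s (x : Eu k) (c : Fin k → ℝ) :
    ∑ j, D j S.s x * c j = 2 * (S.w x * ∑ j, D j S.w x * c j
      + inner ℝ (S.A x) (S.A (vec c))) := by
  rw [← sum_inner_A, Finset.mul_sum, ← Finset.sum_add_distrib, Finset.mul_sum]
  exact Finset.sum_congr rfl fun i _ => by rw [S.D_s]; ring

theorem sum_D_om (x : Eu k) (c : Fin k → ℝ) :
    ∑ j, D j S.om x * c j = - S.om x ^ 3 * (S.w x * ∑ j, D j S.w x * c j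
      + inner ℝ (S.A x) (S.A (vec c))) := by
  have h := S.sum_D_s x c
  have : ∑ j, D j S.om x * c j = - (1 / 2) * S.om x ^ 3 * ∑ j, D j S.s x * c j := by
    rw [Finset.mul_sum]
    exact Finset.sum_congr rfl fun i _ => by rw [S.D_om]; ring
  rw [this, h]; ring

theorem sum_P_nonneg (x : Eu k) (c : Fin k → ℝ) :
    0 ≤ ∑ i, ∑ j, S.P i j x * c i * c j := by
  refine le_trans ?_ (S.conc x c)
  have := S.hδ
  positivity

theorem sum_DD_w (x : Eu k) (c : Fin k → ℝ) :
    ∑ i, ∑ j, D i (D j S.w) x * c i * c j = - ∑ i, ∑ j, S.P i j x * c i * c j := by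
  rw [← Finset.sum_neg_distrib]
  refine Finset.sum_congr rfl fun i _ => ?_
  rw [← Finset.sum_neg_distrib]
  exact Finset.sum_congr rfl fun j _ => by unfold P; ring

theorem sum_sum_mul (a b c : Fin k → ℝ) :
    ∑ i, ∑ j, a i * b j * c i * c j = (∑ i, a i * c i) * ∑ j, b j * c j := by
  rw [Finset.sum_mul_sum]
  exact Finset.sum_congr rfl fun i _ => Finset.sum_congr rfl fun j _ => by ring

theorem sum_DD_s (x : Eu k) (c : Fin k → ℝ) :
    ∑ i, ∑ j, D i (D j S.s) x * c i * c j = 2 * ((∑ j, D j S.w x * c j) ^ 2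
      - S.w x * (∑ i, ∑ j, S.P i j x * c i * c j) + ‖S.A (vec c)‖ ^ 2) := by
  have h : ∀ i j, D i (D j S.s) x * c i * c j = 2 * (D i S.w x * D j S.w x * c i * c j)
      + 2 * S.w x * (D i (D j S.w) x * c i * c j)
      + 2 * (inner ℝ (S.A (e i)) (S.A (e j)) * c i * c j) := by
    intro i j; rw [S.DD_s]; ring
  simp only [h, Finset.sum_add_distrib, ← Finset.mul_sum]
  rw [sum_sum_mul, S.sum_DD_w, sum_sum_inner_A]
  ring

theorem sum_DD_om (x : Eu k) (c : Fin k → ℝ) :
    ∑ i, ∑ j, D i (D j S.om) x * c i * c j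
      = 3 * S.om x ^ 5 * (S.w x * (∑ j, D j S.w x * c j) + inner ℝ (S.A x) (S.A (vec c))) ^ 2
        - S.om x ^ 3 * ((∑ j, D j S.w x * c j) ^ 2
      - S.w x * (∑ i, ∑ j, S.P i j x * c i * c j) + ‖S.A (vec c)‖ ^ 2) := by
  have h : ∀ i j, D i (D j S.om) x * c i * c j
      = 3 / 4 * S.om x ^ 5 * (D i S.s x * D j S.s x * c i * c j)
      - 1 / 2 * S.om x ^ 3 * (D i (D j S.s) x * c i * c j) := by
    intro i j; rw [S.DD_om]; ring
  simp only [h, Finset.sum_sub_distrib, ← Finset.mul_sum]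
  rw [sum_sum_mul, S.sum_DD_s, S.sum_D_s]
  ring

theorem sum_DD_U (x : Eu k) (c : Fin k → ℝ) :
    ∑ i, ∑ j, D i (D j S.U) x * c i * c j = (∑ j, D j S.w x * c j) ^ 2
      - S.w x * (∑ i, ∑ j, S.P i j x * c i * c j) + ∑ i, c i ^ 2 := by
  have h : ∀ i j, D i (D j S.U) x * c i * c j = D i S.w x * D j S.w x * c i * c j
      + S.w x * (D i (D j S.w) x * c i * c j) + (if i = j then 1 else 0) * c i * c j := by
    intro i j; rw [S.DD_U]; ring
  simp only [h, Finset.sum_add_distrib, ← Finset.mul_sum]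
  rw [sum_sum_mul, S.sum_DD_w]
  have h2 : ∑ i, ∑ j, (if i = j then (1 : ℝ) else 0) * c i * c j = ∑ i, c i ^ 2 := by
    refine Finset.sum_congr rfl fun i _ => ?_
    rw [Finset.sum_eq_single i]
    · simp; ring
    · intro j _ hj; simp [Ne.symm hj]
    · simp
  rw [h2]; ring

/-- pointwise estimate of the Bochner integrand with weight `c * om` -/
theorem point {c : Eu k → ℝ} (hc : ContDiff ℝ ∞ c) {F : Fin k → Eu k → ℝ} {x : Eu k}
    (hc0 : 0 ≤ c x) {κ : ℝ} (hκ : 0 ≤ κ) (hκ1 : κ ≤ 1)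
    (h1 : (∑ j, D j c x * F j x) ^ 2 ≤ κ ^ 2 * (c x * ∑ j, F j x ^ 2))
    (h2 : ∑ i, ∑ j, D i (D j c) x * F i x * F j x ≤ κ * ∑ j, F j x ^ 2)
    (htr : 0 ≤ ∑ i, ∑ j, D j (F i) x * D i (F j) x) :
    (c x * S.om x) * dvg S.U F x ^ 2 - (c x * S.om x) * ∑ i, ∑ j, D j (F i) x * D i (F j) x
      - (c x * S.om x) * ∑ i, ∑ j, D i (D j S.U) x * F i x * F j x
      + ∑ i, ∑ j, D i (D j (fun y => c y * S.om y)) x * F i x * F j x
      + 2 * (dvg S.U F x * ∑ j, D j (fun y => c y * S.om y) x * F j x)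
    ≤ (11 / 10 + κ) * (c x * S.om x * dvg S.U F x ^ 2)
      + 2 * (c x * ∑ i, ∑ j, S.P i j x * F i x * F j x)
      - (87 / 100 - κ) * (c x * S.om x * ∑ j, F j x ^ 2)
      + 3 * κ * (S.om x * ∑ j, F j x ^ 2) := by
  have ho := S.om_contDiff
  have e1 : ∑ j, D j (fun y => c y * S.om y) x * F j x
      = c x * (∑ j, D j S.om x * F j x) + S.om x * ∑ j, D j c x * F j x := by
    rw [Finset.mul_sum, Finset.mul_sum, ← Finset.sum_add_distrib]
    exact Finset.sum_congr rfl fun j _ => by rw [D_mul hc ho]; ring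
  have e2 : ∑ i, ∑ j, D i (D j (fun y => c y * S.om y)) x * F i x * F j x
      = c x * (∑ i, ∑ j, D i (D j S.om) x * F i x * F j x)
        + 2 * (∑ j, D j c x * F j x) * (∑ j, D j S.om x * F j x)
        + S.om x * ∑ i, ∑ j, D i (D j c) x * F i x * F j x := by
    have h : ∀ i j, D i (D j (fun y => c y * S.om y)) x * F i x * F j x
        = c x * (D i (D j S.om) x * F i x * F j x)
          + D i c x * D j S.om x * F i x * F j x + D i S.om x * D j c x * F i x * F j x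
          + S.om x * (D i (D j c) x * F i x * F j x) := by
      intro i j
      have h0 : D j (fun y => c y * S.om y) = fun y => D j c y * S.om y + c y * D j S.om y := by
        ext y; exact D_mul hc ho
      rw [h0, D_add ((D_contDiff hc j).mul ho) (hc.mul (D_contDiff ho j)),
        D_mul (D_contDiff hc j) ho, D_mul hc (D_contDiff ho j)]
      ring
    simp only [h, Finset.sum_add_distrib, ← Finset.mul_sum]
    rw [sum_sum_mul, sum_sum_mul]
    ring
  rw [e1, e2, S.sum_DD_U, S.sum_DD_om, S.sum_D_om]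
  have hA := S.hA (vec fun j => F j x)
  have hAn : 0 ≤ ‖S.A (vec fun j => F j x)‖ := norm_nonneg _
  have haf : ‖S.A (vec fun j => F j x)‖ ^ 2 ≤ ∑ j, F j x ^ 2 := by
    rw [← norm_vec_sq]; exact pow_le_pow_left₀ hAn hA 2
  have hip : (inner ℝ (S.A x) (S.A (vec fun j => F j x))) ^ 2
      ≤ ‖S.A x‖ ^ 2 * ‖S.A (vec fun j => F j x)‖ ^ 2 := by
    rw [← mul_pow, ← sq_abs]
    exact pow_le_pow_left₀ (abs_nonneg _) (abs_real_inner_le_norm _ _) 2
  exact arith (c := c x) (o := S.om x) (w := S.w x) (q := ‖S.A x‖ ^ 2) (s := S.s x)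
    (Fz := ∑ j, D j S.w x * F j x) (f2 := ∑ j, F j x ^ 2)
    (af2 := ‖S.A (vec fun j => F j x)‖ ^ 2) (ip := inner ℝ (S.A x) (S.A (vec fun j => F j x)))
    (pf := ∑ i, ∑ j, S.P i j x * F i x * F j x)
    (tr := ∑ i, ∑ j, D j (F i) x * D i (F j) x) (dv := dvg S.U F x)
    (cF := ∑ j, D j c x * F j x) (cFF := ∑ i, ∑ j, D i (D j c) x * F i x * F j x) (κ := κ)
    hc0 (S.om_pos x) (S.om_le x) rfl (sq_nonneg _) (S.om_sq x) haf (sq_nonneg _) hip
    (S.sum_P_nonneg x _) htr hκ hκ1 h1 h2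

/-- if `P F` is a gradient then `tr ((D F) ^ 2) ≥ 0` -/
theorem trace_nonneg {F : Fin k → Eu k → ℝ} (hF : ∀ i, ContDiff ℝ ∞ (F i)) {g : Eu k → ℝ}
    (hg : ContDiff ℝ ∞ g) (h : ∀ i x, ∑ j, S.P i j x * F j x = D i g x) (x : Eu k) :
    0 ≤ ∑ i, ∑ j, D j (F i) x * D i (F j) x := by
  have hPc : ∀ i j, ContDiff ℝ ∞ (S.P i j) := fun i j =>
    (D_contDiff (D_contDiff S.hw j) i).neg
  have hPs : ∀ i j, S.P i j x = S.P j i x := fun i j => by
    unfold P; rw [D_comm S.hw]
  set P : Matrix (Fin k) (Fin k) ℝ := Matrix.of fun i j => S.P i j x with hP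
  set M : Matrix (Fin k) (Fin k) ℝ := Matrix.of fun i j => D j (F i) x with hM
  have hpd : P.PosDef := posDef_of hPs S.hδ (S.conc x)
  have hsym : (P * M)ᵀ = P * M := by
    ext i l
    simp only [Matrix.transpose_apply, Matrix.mul_apply, hP, hM, Matrix.of_apply]
    -- `∑ j P i j D l F j = D l D i g - ∑ D l P i j F j`
    have key : ∀ i l, ∑ j, S.P i j x * D l (F j) x
        = D l (D i g) x - ∑ j, D l (S.P i j) x * F j x := by
      intro i l
      have h0 : D i g = fun y => ∑ j, S.P i j y * F j y := by ext y; exact (h i y).symm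
      rw [h0, D_sum _ fun j => (hPc i j).mul (hF j), ← Finset.sum_sub_distrib]
      exact Finset.sum_congr rfl fun j _ => by rw [D_mul (hPc i j) (hF j)]; ring
    rw [key l i, key i l, D_comm hg]
    congr 1
    refine Finset.sum_congr rfl fun j _ => ?_
    congr 1
    have e1 : ∀ a b, D a (S.P b j) x = - D a (D b (D j S.w)) x := by
      intro a b
      show D a (fun y => - D b (D j S.w) y) x = _
      rw [D_neg]
    rw [e1, e1, D_comm (D_contDiff S.hw j)]
  have h1 := trace_sq_nonneg hpd hsym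
  refine h1.trans (le_of_eq ?_)
  simp only [Matrix.trace, Matrix.diag_apply, Matrix.mul_apply, hM, Matrix.of_apply]

end Dat

end

end Vale.Agent.P262.H853
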