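import Vale.Agent.P262.H853.Fun
import Vale.Agent.P262.H853.Fam

/-! P262, helper853: the residual of a mollified near-minimiser. -/

namespace Vale.Agent.P262.H853

open MeasureTheory Filter Topology
open scoped ContDiff ENNReal
open Vale.Agent.P363.R.Sob

noncomputable section

variable {k J : ℕ} (S : Dat k J) (A : Fam k)

/-- integration by parts for test functions -/
theorem parts {f g : Eu k → ℝ} (hf : Test f) (hg : ContDiff ℝ ∞ g) (i : Fin k) :
    ∫ x, g x * D i f x = - ∫ x, D i g x * f x := by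
  have h := integral_D_eq_zero (Test.mul' hg hf) i
  have h1 : ∀ x, D i (fun y => g y * f y) x = D i g x * f x + g x * D i f x := fun x =>
    D_mul hg hf.1
  simp only [h1] at h
  rw [integral_add (Test.integrable (Test.mul' (D_contDiff hg i) hf))
    (Test.integrable (Test.mul' hg (Test.D hf i)))] at h
  linarith

namespace Dat

/-- localised zeroth order coefficient -/
def al (χ : Eu k → ℝ) (x : Eu k) : ℝ := χ x * (S.a x * S.rho x)

/-- localised second order coefficient -/
def bc (χ : Eu k → ℝ) (i j : Fin k) (x : Eu k) : ℝ := χ x * (1 / 2 * S.q i j x * S.rho x)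

/-- the residual -/
def res (G η : Eu k → ℝ) (x : Eu k) : ℝ := S.a x * (η x - G x) - dvg S.U (S.Fl η) x

variable {χ G ξ η : Eu k → ℝ}

theorem al_test (hχ : Test χ) : Test (S.al χ) := hχ.mul (S.a_contDiff.mul S.rho_contDiff)

theorem bc_test (hχ : Test χ) (i j : Fin k) : Test (S.bc χ i j) :=
  hχ.mul ((contDiff_const.mul (S.q_contDiff i j)).mul S.rho_contDiff)

theorem rho_dvg {F : Fin k → Eu k → ℝ} (hF : ∀ i, ContDiff ℝ ∞ (F i)) (x : Eu k) :
    S.rho x * dvg S.U F x = ∑ i, D i (fun y => S.rho y * F i y) x := by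
  unfold dvg
  rw [Finset.mul_sum]
  refine Finset.sum_congr rfl fun i _ => ?_
  have h : D i S.rho x = - (S.rho x * D i S.U x) := by
    have : S.rho = fun y => Real.exp (- S.U y) := rfl
    rw [this, D_exp S.U_contDiff.neg, D_neg]
    ring
  rw [D_mul S.rho_contDiff (hF i), h]
  ring

/-- the residual of the mollification -/
theorem res_eq (hG : ContDiff ℝ ∞ G) (hξ : Test ξ) (hχ : Test χ) {R t : ℝ}
    (hχ1 : ∀ y, ‖y‖ < R + 3 → χ y = 1) (ht : 0 < t) (ht1 : t ≤ 1) {x : Eu k} (hx : ‖x‖ < R) :
    S.rho x * S.res G (A.M t ξ) x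
      = (S.al χ x * A.M t (fun y => χ y * ξ y) x
          - A.M t (fun y => S.al χ y * (χ y * ξ y)) x)
        - (S.al χ x * G x - A.M t (fun y => S.al χ y * G y) x)
        - ∑ i, ∑ j, D i (fun y => S.bc χ i j y * A.M t (fun z => χ z * D j ξ z) y
            - A.M t (fun z => S.bc χ i j z * (χ z * D j ξ z)) y) x
        + S.Rf G ξ (A.K t x) := by
  have hζ : Test (fun y => χ y * ξ y) := hχ.mul hξ.1
  have hf : ∀ j, Test (fun y => χ y * D j ξ y) := fun j => hχ.mul (D_contDiff hξ.1 j)
  have hα := S.al_test hχ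
  have hb := fun i j => S.bc_test hχ i j
  have hη := A.M_test ht hξ
  have hαζ : Test (fun y => S.al χ y * (χ y * ξ y)) := hα.mul hζ.1
  have hαG : Test (fun y => S.al χ y * G y) := hα.mul hG
  have hbf : ∀ i j, Test (fun y => S.bc χ i j y * (χ y * D j ξ y)) := fun i j =>
    (hb i j).mul (hf j).1
  -- local equalities
  have l1 : ∀ y, ‖y‖ < R → A.M t ξ y = A.M t (fun y => χ y * ξ y) y := by
    intro y hy
    refine A.M_congr ht hξ hζ fun z hz => ?_
    have : ‖z‖ < R + 3 := by
      calc ‖z‖ = ‖(z - y) + y‖ := by congr 1; abel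
        _ ≤ ‖z - y‖ + ‖y‖ := norm_add_le _ _
        _ < R + 3 := by linarith
    rw [hχ1 z this, one_mul]
  have l2 : ∀ j y, ‖y‖ < R → D j (A.M t ξ) y = A.M t (fun z => χ z * D j ξ z) y := by
    intro j y hy
    rw [A.D_M j y ht hξ]
    refine A.M_congr ht (Test.D hξ j) (hf j) fun z hz => ?_
    have : ‖z‖ < R + 3 := by
      calc ‖z‖ = ‖(z - y) + y‖ := by congr 1; abel
        _ ≤ ‖z - y‖ + ‖y‖ := norm_add_le _ _
        _ < R + 3 := by linarith
    rw [hχ1 z this, one_mul]
  have hx3 : χ x = 1 := hχ1 x (by linarith)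
  have l3 : ∀ i, D i (fun y => S.rho y * S.Fl (A.M t ξ) i y) x
      = ∑ j, D i (fun y => S.bc χ i j y * A.M t (fun z => χ z * D j ξ z) y) x := by
    intro i
    have hev : (fun y => S.rho y * S.Fl (A.M t ξ) i y) =ᶠ[𝓝 x]
        fun y => ∑ j, S.bc χ i j y * A.M t (fun z => χ z * D j ξ z) y := by
      have hopen : ∀ᶠ y in 𝓝 x, ‖y‖ < R := (isOpen_lt continuous_norm continuous_const).mem_nhds hx
      filter_upwards [hopen] with y hy
      unfold Fl bc
      rw [Finset.mul_sum]
      refine Finset.sum_congr rfl fun j _ => ?_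
      rw [l2 j y hy, hχ1 y (by linarith)]
      ring
    rw [D_congr_nhds hev, D_sum _ fun j => ((hb i j).mul (A.M_test ht (hf j)).1).1]
  have l4 : ∀ i j, D i (fun y => S.bc χ i j y * A.M t (fun z => χ z * D j ξ z) y) x
      = D i (fun y => S.bc χ i j y * A.M t (fun z => χ z * D j ξ z) y
            - A.M t (fun z => S.bc χ i j z * (χ z * D j ξ z)) y) x
        + A.M t (D i (fun z => S.bc χ i j z * (χ z * D j ξ z))) x := by
    intro i j
    rw [D_sub ((hb i j).mul (A.M_test ht (hf j)).1).1 (A.M_test ht (hbf i j)).1,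
      A.D_M i x ht (hbf i j)]
    ring
  -- the weak form
  have l5 : S.Rf G ξ (A.K t x) = A.M t (fun y => S.al χ y * (χ y * ξ y)) x
      - A.M t (fun y => S.al χ y * G y) x
      - ∑ i, ∑ j, A.M t (D i (fun z => S.bc χ i j z * (χ z * D j ξ z))) x := by
    have hK := A.K_test x ht
    have e1 : ∀ i j, A.M t (D i (fun z => S.bc χ i j z * (χ z * D j ξ z))) x
        = - ∫ y, D i (A.K t x) y * (S.bc χ i j y * (χ y * D j ξ y)) := by
      intro i j
      rw [A.ker x ht (Test.D (hbf i j) i), parts (hbf i j) hK.1]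
    have e2 : ∑ i, ∑ j, A.M t (D i (fun z => S.bc χ i j z * (χ z * D j ξ z))) x
        = - ∫ y, ∑ i, ∑ j, D i (A.K t x) y * (S.bc χ i j y * (χ y * D j ξ y)) := by
      rw [integral_finsetSum _ fun i _ => integrable_finsetSum _ fun j _ =>
        Test.integrable ((Test.D hK i).mul (hbf i j).1), ← Finset.sum_neg_distrib]
      refine Finset.sum_congr rfl fun i _ => ?_
      rw [integral_finsetSum _ fun j _ =>
        Test.integrable ((Test.D hK i).mul (hbf i j).1), ← Finset.sum_neg_distrib]
      exact Finset.sum_congr rfl fun j _ => e1 i j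
    rw [e2, A.ker x ht hαζ, A.ker x ht hαG, sub_neg_eq_add,
      ← integral_sub (A.int1 ht hαζ.1) (A.int1 ht hαG.1)]
    have i3 : Integrable (fun y => ∑ i, ∑ j, D i (A.K t x) y
        * (S.bc χ i j y * (χ y * D j ξ y))) :=
      integrable_finsetSum _ fun i _ => integrable_finsetSum _ fun j _ =>
        Test.integrable ((Test.D hK i).mul (hbf i j).1)
    have e4 := integral_add ((A.int1 (x := x) ht hαζ.1).sub (A.int1 (x := x) ht hαG.1)) i3
    simp only [Pi.sub_apply] at e4
    rw [← e4]
    unfold Rf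
    refine integral_congr_ae (Eventually.of_forall fun y => ?_)
    simp only
    rcases lt_or_ge ‖y‖ (R + 3) with hy | hy
    · have hy1 := hχ1 y hy
      have e3 : S.en ξ (A.K t x) y * S.rho y
          = ∑ i, ∑ j, D i (A.K t x) y * (S.bc χ i j y * (χ y * D j ξ y)) := by
        unfold en Fl bc
        rw [Finset.sum_mul]
        refine Finset.sum_congr rfl fun i _ => ?_
        rw [Finset.sum_mul, Finset.sum_mul]
        refine Finset.sum_congr rfl fun j _ => ?_
        rw [hy1]; ring
      rw [add_mul, e3]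
      simp only [al, hy1]
      ring
    · have hyx : 3 < ‖y - x‖ := by
        have : ‖y‖ ≤ ‖y - x‖ + ‖x‖ := by
          calc ‖y‖ = ‖(y - x) + x‖ := by congr 1; abel
            _ ≤ _ := norm_add_le _ _
        linarith
      have hK0 : ∀ᶠ z in 𝓝 y, A.K t x z = 0 := by
        have : ∀ᶠ z in 𝓝 y, 3 < ‖z - x‖ :=
          (isOpen_lt continuous_const (by fun_prop : Continuous fun z : Eu k => ‖z - x‖)).mem_nhds
            hyx
        filter_upwards [this] with z hz
        exact A.K_supp x z ht (by linarith)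
      have h1 : A.K t x y = 0 := hK0.self_of_nhds
      have h2 : ∀ i, D i (A.K t x) y = 0 := fun i => by
        have : A.K t x =ᶠ[𝓝 y] fun _ => 0 := hK0
        rw [D_congr_nhds this, D_const]
      unfold en
      simp only [h1, h2, mul_zero, zero_mul, Finset.sum_const_zero, add_zero, sub_zero]
  have l6 : S.rho x * S.res G (A.M t ξ) x = S.al χ x * A.M t (fun y => χ y * ξ y) x
      - S.al χ x * G x
      - ∑ i, ∑ j, D i (fun y => S.bc χ i j y * A.M t (fun z => χ z * D j ξ z) y) x := by
    unfold res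
    rw [mul_sub, S.rho_dvg fun i => S.Fl_contDiff hη.1 i, Finset.sum_congr rfl fun i _ => l3 i,
      l1 x hx]
    simp only [al, hx3]
    ring
  rw [l6, l5]
  simp only [l4, Finset.sum_add_distrib]
  ring

end Dat

end

end Vale.Agent.P262.H853
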