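import Vale.Agent.P262.H853.Loc

/-! P262, helper853: bookkeeping of small errors. -/

namespace Vale.Agent.P262.H853

open MeasureTheory Filter Topology
open scoped ContDiff ENNReal
open Vale.Agent.P363.R.Sob

noncomputable section

/-- the accuracy of the near-minimisers -/
def ep (n : ℕ) : ℝ := 1 / ((n : ℝ) + 1)

theorem ep_pos (n : ℕ) : 0 < ep n := by unfold ep; positivity

theorem ep_tendsto : Tendsto ep atTop (𝓝 0) := tendsto_one_div_add_atTop_nhds_zero_nat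

/-- error terms that can be made small -/
def Small (X : ℝ → ℕ → ℝ) : Prop :=
  ∃ a : ℝ, 0 ≤ a ∧ ∀ N : ℕ, ∃ b : ℝ, 0 ≤ b ∧ ∀ t : ℝ, 0 < t → t ≤ 1 → ∃ c : ℝ, 0 ≤ c ∧
    ∀ n, X t n ≤ a * (ep n + ep N) + b * t ^ 2 + c * ep n

theorem Small.add {X Y : ℝ → ℕ → ℝ} (hX : Small X) (hY : Small Y) :
    Small (fun t n => X t n + Y t n) := by
  obtain ⟨a, ha, hX⟩ := hX
  obtain ⟨a', ha', hY⟩ := hY
  refine ⟨a + a', add_nonneg ha ha', fun N => ?_⟩
  obtain ⟨b, hb, hX⟩ := hX N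
  obtain ⟨b', hb', hY⟩ := hY N
  refine ⟨b + b', add_nonneg hb hb', fun t ht ht1 => ?_⟩
  obtain ⟨c, hc, hX⟩ := hX t ht ht1
  obtain ⟨c', hc', hY⟩ := hY t ht ht1
  refine ⟨c + c', add_nonneg hc hc', fun n => ?_⟩
  have h1 := hX n
  have h2 := hY n
  linarith

theorem Small.mono {X Y : ℝ → ℕ → ℝ} (hY : Small Y)
    (h : ∀ t n, 0 < t → t ≤ 1 → X t n ≤ Y t n) : Small X := by
  obtain ⟨a, ha, hY⟩ := hY
  refine ⟨a, ha, fun N => ?_⟩
  obtain ⟨b, hb, hY⟩ := hY N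
  refine ⟨b, hb, fun t ht ht1 => ?_⟩
  obtain ⟨c, hc, hY⟩ := hY t ht ht1
  exact ⟨c, hc, fun n => (h t n ht ht1).trans (hY n)⟩

theorem Small.const_mul {X : ℝ → ℕ → ℝ} (hX : Small X) {r : ℝ} (hr : 0 ≤ r) :
    Small (fun t n => r * X t n) := by
  obtain ⟨a, ha, hX⟩ := hX
  refine ⟨r * a, mul_nonneg hr ha, fun N => ?_⟩
  obtain ⟨b, hb, hX⟩ := hX N
  refine ⟨r * b, mul_nonneg hr hb, fun t ht ht1 => ?_⟩
  obtain ⟨c, hc, hX⟩ := hX t ht ht1
  refine ⟨r * c, mul_nonneg hr hc, fun n => ?_⟩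
  have h1 := mul_le_mul_of_nonneg_left (hX n) hr
  linarith

theorem Small.sq {b : ℝ} (hb : 0 ≤ b) : Small (fun t _ => b * t ^ 2) := by
  refine ⟨0, le_rfl, fun N => ⟨b, hb, fun t ht ht1 => ⟨0, le_rfl, fun n => ?_⟩⟩⟩
  linarith

theorem Small.zero : Small (fun _ _ => 0) := (Small.sq le_rfl).mono fun t n _ _ => by simp

theorem Small.sum {ι : Type*} (s : Finset ι) {X : ι → ℝ → ℕ → ℝ} (hX : ∀ i, Small (X i)) :
    Small (fun t n => ∑ i ∈ s, X i t n) := by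
  classical
  induction s using Finset.induction_on with
  | empty => simpa using Small.zero
  | insert a s ha ih =>
    simp only [Finset.sum_insert ha]
    exact (hX a).add ih

theorem Small.ep {c : ℝ → ℝ} (hc : ∀ t, 0 < t → t ≤ 1 → 0 ≤ c t) :
    Small (fun t n => c t * ep n) := by
  refine ⟨0, le_rfl, fun N => ⟨0, le_rfl, fun t ht ht1 => ⟨c t, hc t ht ht1, fun n => ?_⟩⟩⟩
  linarith

theorem Small.elim {X : ℝ → ℕ → ℝ} (hX : Small X) {ε : ℝ} (hε : 0 < ε) :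
    ∃ t : ℝ, 0 < t ∧ t ≤ 1 ∧ ∀ᶠ n in atTop, X t n ≤ ε := by
  obtain ⟨a, ha, hX⟩ := hX
  have key : ∀ r : ℝ, 0 ≤ r → ∀ᶠ n in atTop, r * H853.ep n ≤ ε / 4 := by
    intro r _
    have h1 : Tendsto (fun n => r * H853.ep n) atTop (𝓝 (r * 0)) := ep_tendsto.const_mul r
    rw [mul_zero] at h1
    exact (h1.eventually (gt_mem_nhds (show (0 : ℝ) < ε / 4 by linarith))).mono fun n hn => hn.le
  obtain ⟨N, hN⟩ := (key a ha).exists
  obtain ⟨b, hb, hX⟩ := hX N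
  have hpos : 0 < ε / (4 * (b + 1)) := by positivity
  refine ⟨min 1 (ε / (4 * (b + 1))), lt_min one_pos hpos, min_le_left _ _, ?_⟩
  have ht : 0 < min 1 (ε / (4 * (b + 1))) := lt_min one_pos hpos
  obtain ⟨c, hc, hX⟩ := hX _ ht (min_le_left _ _)
  filter_upwards [key a ha, key c hc] with n h1 h2
  refine (hX n).trans ?_
  set t := min 1 (ε / (4 * (b + 1))) with htd
  have h3 : b * t ^ 2 ≤ ε / 4 := by
    have h4 : t ^ 2 ≤ t := by
      have := min_le_left 1 (ε / (4 * (b + 1)))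
      nlinarith
    have h5 : t ≤ ε / (4 * (b + 1)) := min_le_right _ _
    calc b * t ^ 2 ≤ (b + 1) * (ε / (4 * (b + 1))) :=
          mul_le_mul (by linarith) (h4.trans h5) (sq_nonneg _) (by linarith)
      _ = ε / 4 := by field_simp
  linarith

/-- a sequence of near-minimisers -/
structure Mseq {k J : ℕ} (S : Dat k J) (G : Eu k → ℝ) where
  ξ : ℕ → Eu k → ℝ
  test : ∀ n, Test (ξ n)
  R : ∀ n η, Test η → S.Rf G (ξ n) η ^ 2 ≤ ep n * S.Qf η
  B : ℝ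
  J : ∀ n, S.Jf G (ξ n) ≤ B

theorem exists_mseq {k J : ℕ} (S : Dat k J) {G : Eu k → ℝ} (hG : Dat.Bd G) :
    Nonempty (Mseq S G) := by
  have h := fun n : ℕ => S.exists_near_min hG (ep_pos n)
  choose ξ h1 h2 h3 using h
  refine ⟨⟨ξ, h1, h3, S.Jf G (fun _ => 0) + 1, fun n => (h2 n).trans ?_⟩⟩
  have : ep n ≤ 1 := by
    unfold ep
    rw [div_le_one (by positivity)]
    have : (0 : ℝ) ≤ n := Nat.cast_nonneg n
    linarith
  linarith

end

end Vale.Agent.P262.H853
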