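import Vale.Agent.P262.H853.Approx
import Vale.Agent.P262.H853.BoLoc

/-! P262, helper853: transfer of the localised Bochner inequality to the near-minimisers. -/

namespace Vale.Agent.P262.H853

open MeasureTheory Filter Topology
open scoped ContDiff ENNReal
open Vale.Agent.P363.R.Sob

noncomputable section

variable {k J : ℕ} (S : Dat k J)

theorem supp_bound {c g : Eu k → ℝ} (hc : Test c) (hc0 : ∀ x, 0 ≤ c x) (hg : Continuous g) :
    ∃ C : ℝ, 0 ≤ C ∧ ∀ x, c x * g x ≤ C * c x := by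
  obtain ⟨C, hC⟩ := (hc.2 : IsCompact (tsupport c)).exists_bound_of_continuousOn hg.continuousOn
  refine ⟨max C 0, le_max_right _ _, fun x => ?_⟩
  by_cases hx : x ∈ tsupport c
  · have h1 : g x ≤ max C 0 := (le_abs_self _).trans ((hC x hx).trans (le_max_left _ _))
    rw [mul_comm]
    exact mul_le_mul_of_nonneg_right h1 (hc0 x)
  · rw [image_eq_zero_of_notMem_tsupport hx]
    simp

namespace Dat

variable {G ξ η d : Eu k → ℝ} {c c' : Eu k → ℝ} {κ : ℝ}

theorem res_contDiff (hG : ContDiff ℝ ∞ G) (hη : ContDiff ℝ ∞ η) : ContDiff ℝ ∞ (S.res G η) :=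
  (S.a_contDiff.mul (hη.sub hG)).sub (dvg_contDiff S.U_contDiff fun i => S.Fl_contDiff hη i)

theorem en_contDiff (hξ : ContDiff ℝ ∞ ξ) (hη : ContDiff ℝ ∞ η) : ContDiff ℝ ∞ (S.en ξ η) :=
  ContDiff.sum fun i _ => (S.Fl_contDiff hξ i).mul (D_contDiff hη i)

theorem sq_contDiff (hξ : ContDiff ℝ ∞ ξ) : ContDiff ℝ ∞ (fun x => ∑ j, S.Fl ξ j x ^ 2) :=
  ContDiff.sum fun j _ => (S.Fl_contDiff hξ j).pow 2

theorem Fl_sub (hξ : ContDiff ℝ ∞ ξ) (hη : ContDiff ℝ ∞ η) (i : Fin k) (x : Eu k) :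
    S.Fl (fun y => ξ y - η y) i x = S.Fl ξ i x - S.Fl η i x := by
  have h := S.Fl_add_mul hξ hη (-1) i x
  have e3 : (fun y => ξ y + -1 * η y) = fun y => ξ y - η y := by ext y; ring
  rw [e3] at h
  rw [h]; ring

theorem om_a_sq (x : Eu k) : S.om x * S.a x ^ 2 = S.a x := by
  have := S.a_mul_om x
  calc S.om x * S.a x ^ 2 = (S.a x * S.om x) * S.a x := by ring
    _ = S.a x := by rw [this, one_mul]

theorem en_young (hξ : ContDiff ℝ ∞ ξ) (hη : ContDiff ℝ ∞ η) (x : Eu k) :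
    S.en η η x ≤ 11 / 10 * S.en ξ ξ x
      + 11 * S.en (fun y => η y - ξ y) (fun y => η y - ξ y) x := by
  set d : Eu k → ℝ := fun y => η y - ξ y with hd
  have hds : ContDiff ℝ ∞ d := hη.sub hξ
  have h1 := S.en_expand hξ hds 1 x
  have e1 : (fun y => ξ y + 1 * d y) = η := by ext y; simp only [hd]; ring
  rw [e1] at h1
  have h2 := S.en_expand hξ hds (-10) x
  have h3 := S.en_nonneg (fun y => ξ y + -10 * d y) x
  rw [h2] at h3
  rw [h1]
  linarith

theorem Fl_young (hξ : ContDiff ℝ ∞ ξ) (hη : ContDiff ℝ ∞ η) (x : Eu k) :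
    ∑ j, S.Fl ξ j x ^ 2 ≤ 11 / 10 * ∑ j, S.Fl η j x ^ 2
      + 11 * ∑ j, S.Fl (fun y => η y - ξ y) j x ^ 2 := by
  rw [Finset.mul_sum, Finset.mul_sum, ← Finset.sum_add_distrib]
  refine Finset.sum_le_sum fun j _ => ?_
  rw [S.Fl_sub hη hξ]
  nlinarith [sq_nonneg (S.Fl η j x - 10 * (S.Fl ξ j x - S.Fl η j x))]

theorem Fl_young' (hξ : ContDiff ℝ ∞ ξ) (hη : ContDiff ℝ ∞ η) (x : Eu k) :
    ∑ j, S.Fl η j x ^ 2 ≤ 2 * ∑ j, S.Fl ξ j x ^ 2
      + 2 * ∑ j, S.Fl (fun y => η y - ξ y) j x ^ 2 := by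
  rw [Finset.mul_sum, Finset.mul_sum, ← Finset.sum_add_distrib]
  refine Finset.sum_le_sum fun j _ => ?_
  rw [S.Fl_sub hη hξ]
  nlinarith [sq_nonneg (S.Fl η j x - 2 * (S.Fl ξ j x))]

theorem dvg_young (x : Eu k) :
    dvg S.U (S.Fl η) x ^ 2 ≤ 11 / 10 * (S.a x ^ 2 * (ξ x - G x) ^ 2)
      + 22 * (S.a x ^ 2 * (η x - ξ x) ^ 2) + 22 * S.res G η x ^ 2 := by
  have h : dvg S.U (S.Fl η) x = S.a x * (ξ x - G x) + (S.a x * (η x - ξ x) - S.res G η x) := by
    unfold res; ring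
  rw [h]
  set p := S.a x * (ξ x - G x) with hp
  set q := S.a x * (η x - ξ x) with hq
  set r := S.res G η x
  have e1 : S.a x ^ 2 * (ξ x - G x) ^ 2 = p ^ 2 := by rw [hp]; ring
  have e2 : S.a x ^ 2 * (η x - ξ x) ^ 2 = q ^ 2 := by rw [hq]; ring
  rw [e1, e2]
  nlinarith [sq_nonneg (p - 10 * (q - r)), sq_nonneg (q + r)]

/-- the transfer inequality for fixed functions -/
theorem trans_ineq (hG : ContDiff ℝ ∞ G) (hξ : Test ξ) (hη : Test η) (hκ : 0 ≤ κ)
    (hκ1 : κ ≤ 1 / 2) (hc : Cut κ c c') :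
    (87 / 100 - κ) * (∫ x, c x * S.om x * (∑ j, S.Fl ξ j x ^ 2) * S.rho x)
      ≤ 11 / 10 * ((11 / 10 + κ) * (11 / 10 * (∫ x, c x * (S.a x * (ξ x - G x) ^ 2) * S.rho x)
          + 22 * (∫ x, c x * (S.a x * (η x - ξ x) ^ 2) * S.rho x)
          + 22 * (∫ x, c x * (S.om x * S.res G η x ^ 2) * S.rho x))
        + (11 / 10 * (∫ x, c x * S.en ξ ξ x * S.rho x)
          + 11 * (∫ x, c x * S.en (fun y => η y - ξ y) (fun y => η y - ξ y) x * S.rho x))
        + 3 * κ * (2 * (∫ x, c' x * S.om x * (∑ j, S.Fl ξ j x ^ 2) * S.rho x)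
          + 2 * (∫ x, c' x * S.om x * (∑ j, S.Fl (fun y => η y - ξ y) j x ^ 2) * S.rho x)))
        + 11 * (∫ x, c' x * S.om x * (∑ j, S.Fl (fun y => η y - ξ y) j x ^ 2) * S.rho x) := by
  have hB := S.bo_loc hη hκ (by linarith) hc
  have ho := S.om_contDiff
  have hr := S.rho_contDiff
  have ha := S.a_contDiff
  have hct := hc.test
  have hct' := hc.test'
  have hd : ContDiff ℝ ∞ (fun y => η y - ξ y) := hη.1.sub hξ.1
  have r1 : Integrable (fun x => c x * S.om x * (∑ j, S.Fl ξ j x ^ 2) * S.rho x) :=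
    Test.integrable (((hct.mul ho).mul (S.sq_contDiff hξ.1)).mul hr)
  have r2 : Integrable (fun x => c x * S.om x * (∑ j, S.Fl η j x ^ 2) * S.rho x) :=
    Test.integrable (((hct.mul ho).mul (S.sq_contDiff hη.1)).mul hr)
  have r3' : Integrable (fun x => c' x * S.om x * (∑ j, S.Fl (fun y => η y - ξ y) j x ^ 2)
      * S.rho x) := Test.integrable (((hct'.mul ho).mul (S.sq_contDiff hd)).mul hr)
  have r1' : Integrable (fun x => c' x * S.om x * (∑ j, S.Fl ξ j x ^ 2) * S.rho x) :=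
    Test.integrable (((hct'.mul ho).mul (S.sq_contDiff hξ.1)).mul hr)
  have r2' : Integrable (fun x => c' x * S.om x * (∑ j, S.Fl η j x ^ 2) * S.rho x) :=
    Test.integrable (((hct'.mul ho).mul (S.sq_contDiff hη.1)).mul hr)
  have r4 : Integrable (fun x => c x * S.en ξ ξ x * S.rho x) :=
    Test.integrable ((hct.mul (S.en_contDiff hξ.1 hξ.1)).mul hr)
  have r5 : Integrable (fun x => c x * S.en η η x * S.rho x) :=
    Test.integrable ((hct.mul (S.en_contDiff hη.1 hη.1)).mul hr)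
  have r6 : Integrable (fun x => c x * S.en (fun y => η y - ξ y) (fun y => η y - ξ y) x
      * S.rho x) := Test.integrable ((hct.mul (S.en_contDiff hd hd)).mul hr)
  have r7 : Integrable (fun x => c x * (S.a x * (ξ x - G x) ^ 2) * S.rho x) :=
    Test.integrable ((hct.mul (ha.mul ((hξ.1.sub hG).pow 2))).mul hr)
  have r8 : Integrable (fun x => c x * (S.a x * (η x - ξ x) ^ 2) * S.rho x) :=
    Test.integrable ((hct.mul (ha.mul (hd.pow 2))).mul hr)
  have r9 : Integrable (fun x => c x * (S.om x * S.res G η x ^ 2) * S.rho x) :=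
    Test.integrable ((hct.mul (ho.mul ((S.res_contDiff hG hη.1).pow 2))).mul hr)
  have r10 : Integrable (fun x => c x * S.om x * dvg S.U (S.Fl η) x ^ 2 * S.rho x) :=
    Test.integrable (((hct.mul ho).mul ((dvg_contDiff S.U_contDiff
      fun i => S.Fl_contDiff hη.1 i).pow 2)).mul hr)
  -- the field
  have f1 : ∫ x, c x * S.om x * (∑ j, S.Fl ξ j x ^ 2) * S.rho x
      ≤ 11 / 10 * (∫ x, c x * S.om x * (∑ j, S.Fl η j x ^ 2) * S.rho x)
        + 11 * (∫ x, c' x * S.om x * (∑ j, S.Fl (fun y => η y - ξ y) j x ^ 2) * S.rho x) := by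
    rw [← integral_const_mul, ← integral_const_mul,
      ← integral_add (r2.const_mul _) (r3'.const_mul _)]
    refine integral_mono r1 ((r2.const_mul _).add (r3'.const_mul _)) fun x => ?_
    beta_reduce
    have h1 := S.Fl_young hξ.1 hη.1 x
    have h2 := hc.nonneg x
    have h3 := S.om_pos x
    have h4 := S.rho_pos x
    have h5 : 0 ≤ ∑ j, S.Fl (fun y => η y - ξ y) j x ^ 2 := Finset.sum_nonneg fun j _ => sq_nonneg _
    have h6 := hc.le x
    have h7 : c x * S.om x * (∑ j, S.Fl ξ j x ^ 2) * S.rho x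
        ≤ c x * S.om x * (11 / 10 * ∑ j, S.Fl η j x ^ 2
          + 11 * ∑ j, S.Fl (fun y => η y - ξ y) j x ^ 2) * S.rho x :=
      mul_le_mul_of_nonneg_right (mul_le_mul_of_nonneg_left h1 (by positivity)) h4.le
    have h8 : c x * (S.om x * (∑ j, S.Fl (fun y => η y - ξ y) j x ^ 2) * S.rho x)
        ≤ c' x * (S.om x * (∑ j, S.Fl (fun y => η y - ξ y) j x ^ 2) * S.rho x) :=
      mul_le_mul_of_nonneg_right h6 (by positivity)
    linarith
  have f2 : ∫ x, c' x * S.om x * (∑ j, S.Fl η j x ^ 2) * S.rho x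
      ≤ 2 * (∫ x, c' x * S.om x * (∑ j, S.Fl ξ j x ^ 2) * S.rho x)
        + 2 * (∫ x, c' x * S.om x * (∑ j, S.Fl (fun y => η y - ξ y) j x ^ 2) * S.rho x) := by
    rw [← integral_const_mul, ← integral_const_mul,
      ← integral_add (r1'.const_mul _) (r3'.const_mul _)]
    refine integral_mono r2' ((r1'.const_mul _).add (r3'.const_mul _)) fun x => ?_
    beta_reduce
    have h1 := S.Fl_young' hξ.1 hη.1 x
    have h2 := hc.nonneg' x
    have h3 := S.om_pos x
    have h4 := S.rho_pos x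
    have h7 : c' x * S.om x * (∑ j, S.Fl η j x ^ 2) * S.rho x
        ≤ c' x * S.om x * (2 * ∑ j, S.Fl ξ j x ^ 2
          + 2 * ∑ j, S.Fl (fun y => η y - ξ y) j x ^ 2) * S.rho x :=
      mul_le_mul_of_nonneg_right (mul_le_mul_of_nonneg_left h1 (by positivity)) h4.le
    linarith
  have f3 : ∫ x, c x * S.en η η x * S.rho x
      ≤ 11 / 10 * (∫ x, c x * S.en ξ ξ x * S.rho x)
        + 11 * (∫ x, c x * S.en (fun y => η y - ξ y) (fun y => η y - ξ y) x * S.rho x) := by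
    rw [← integral_const_mul, ← integral_const_mul,
      ← integral_add (r4.const_mul _) (r6.const_mul _)]
    refine integral_mono r5 ((r4.const_mul _).add (r6.const_mul _)) fun x => ?_
    beta_reduce
    have h1 := S.en_young hξ.1 hη.1 x
    have h2 := hc.nonneg x
    have h4 := S.rho_pos x
    have h7 := mul_le_mul_of_nonneg_right (mul_le_mul_of_nonneg_left h1 h2) h4.le
    linarith
  have f4 : ∫ x, c x * S.om x * dvg S.U (S.Fl η) x ^ 2 * S.rho x
      ≤ 11 / 10 * (∫ x, c x * (S.a x * (ξ x - G x) ^ 2) * S.rho x)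
          + 22 * (∫ x, c x * (S.a x * (η x - ξ x) ^ 2) * S.rho x)
          + 22 * (∫ x, c x * (S.om x * S.res G η x ^ 2) * S.rho x) := by
    have j1 := (r7.const_mul (11 / 10)).add (r8.const_mul 22)
    have k1 := integral_add (r7.const_mul (11 / 10)) (r8.const_mul 22)
    have k2 := integral_add j1 (r9.const_mul 22)
    simp only [Pi.add_apply] at k2
    rw [← integral_const_mul, ← integral_const_mul, ← integral_const_mul, ← k1, ← k2]
    refine integral_mono r10 (j1.add (r9.const_mul 22)) fun x => ?_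
    beta_reduce
    have h1 := S.dvg_young (G := G) (ξ := ξ) (η := η) x
    have h2 := hc.nonneg x
    have h3 := S.om_pos x
    have h4 := S.rho_pos x
    have h7 := mul_le_mul_of_nonneg_right (mul_le_mul_of_nonneg_left h1
      (mul_nonneg h2 h3.le)) h4.le
    refine h7.trans (le_of_eq ?_)
    have h8 := S.om_a_sq x
    calc c x * S.om x * (11 / 10 * (S.a x ^ 2 * (ξ x - G x) ^ 2)
          + 22 * (S.a x ^ 2 * (η x - ξ x) ^ 2) + 22 * S.res G η x ^ 2) * S.rho x
        = 11 / 10 * (c x * ((S.om x * S.a x ^ 2) * (ξ x - G x) ^ 2) * S.rho x)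
          + 22 * (c x * ((S.om x * S.a x ^ 2) * (η x - ξ x) ^ 2) * S.rho x)
          + 22 * (c x * (S.om x * S.res G η x ^ 2) * S.rho x) := by ring
      _ = _ := by rw [h8]
  set X := ∫ x, c x * S.om x * (∑ j, S.Fl ξ j x ^ 2) * S.rho x
  set Y := ∫ x, c x * S.om x * (∑ j, S.Fl η j x ^ 2) * S.rho x
  set Y' := ∫ x, c' x * S.om x * (∑ j, S.Fl η j x ^ 2) * S.rho x
  set V := ∫ x, c x * S.om x * dvg S.U (S.Fl η) x ^ 2 * S.rho x
  set E := ∫ x, c x * S.en η η x * S.rho x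
  set E5 := ∫ x, c' x * S.om x * (∑ j, S.Fl (fun y => η y - ξ y) j x ^ 2) * S.rho x with hE5
  have g0 : 0 ≤ E5 := by
    rw [hE5]
    refine integral_nonneg fun x => ?_
    have h2 := hc.nonneg' x
    have h3 := S.om_pos x
    have h4 := S.rho_pos x
    have h5 : 0 ≤ ∑ j, S.Fl (fun y => η y - ξ y) j x ^ 2 := Finset.sum_nonneg fun j _ => sq_nonneg _
    positivity
  have g1 := mul_le_mul_of_nonneg_left f1 (show (0 : ℝ) ≤ 87 / 100 - κ by linarith)
  have g2 := mul_le_mul_of_nonneg_left f2 (show (0 : ℝ) ≤ 3 * κ by linarith)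
  have g4 := mul_le_mul_of_nonneg_left f4 (show (0 : ℝ) ≤ 11 / 10 + κ by linarith)
  have g5 : (87 / 100 - κ) * (11 * E5) ≤ 11 * E5 := by nlinarith
  linarith

end Dat

end

end Vale.Agent.P262.H853
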