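import Vale.Agent.P262.H853.Trans

/-! P262, helper853: the Bochner inequality for the near-minimisers. -/

namespace Vale.Agent.P262.H853

open MeasureTheory Filter Topology
open scoped ContDiff ENNReal
open Vale.Agent.P363.R.Sob

noncomputable section

variable {k J : ℕ} {S : Dat k J} (A : Fam k) {G χ c c' : Eu k → ℝ} {κ : ℝ}

namespace Dat

variable (S) in
theorem Fl_sq_le (d : Eu k → ℝ) (x : Eu k) :
    ∑ i, S.Fl d i x ^ 2 ≤ (1 / 4 * ∑ i, ∑ j, S.q i j x ^ 2) * ∑ j, D j d x ^ 2 := by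
  have h : ∀ i, S.Fl d i x ^ 2 ≤ (1 / 4 * ∑ j, S.q i j x ^ 2) * ∑ j, D j d x ^ 2 := by
    intro i
    have h1 : S.Fl d i x = 1 / 2 * ∑ j, S.q i j x * D j d x := by
      unfold Fl
      rw [Finset.mul_sum]
      exact Finset.sum_congr rfl fun j _ => by ring
    rw [h1, mul_pow]
    have := Finset.sum_mul_sq_le_sq_mul_sq Finset.univ (fun j => S.q i j x) fun j => D j d x
    linarith
  refine (Finset.sum_le_sum fun i _ => h i).trans (le_of_eq ?_)
  rw [← Finset.sum_mul, ← Finset.mul_sum]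

variable (S) in
theorem en_le (d : Eu k → ℝ) (x : Eu k) :
    S.en d d x ≤ (1 / 2 * (1 / 4 * ∑ i, ∑ j, S.q i j x ^ 2) + 1 / 2) * ∑ j, D j d x ^ 2 := by
  have h1 : S.en d d x ≤ 1 / 2 * ∑ i, S.Fl d i x ^ 2 + 1 / 2 * ∑ i, D i d x ^ 2 := by
    unfold en
    rw [Finset.mul_sum, Finset.mul_sum, ← Finset.sum_add_distrib]
    refine Finset.sum_le_sum fun i _ => ?_
    nlinarith [sq_nonneg (S.Fl d i x - D i d x)]
  have h2 := S.Fl_sq_le d x
  linarith

end Dat

namespace Mseq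

variable (Z : Mseq S G)

theorem err1 (hG : Dat.Bd G) (hc : Cut κ c c') {R : ℝ} (hcR : ∀ x, R ≤ ‖x‖ → c' x = 0)
    (hχ : Test χ) (hχ1 : ∀ y, ‖y‖ < R + 3 → χ y = 1) :
    Small (fun t n => ∫ x, c x * (S.a x * (A.M t (Z.ξ n) x - Z.ξ n x) ^ 2) * S.rho x) := by
  obtain ⟨C, hC, h⟩ := supp_bound hc.test' hc.nonneg'
    (S.a_contDiff.mul S.rho_contDiff).continuous
  refine ((Z.val_small A hG hc.nonneg' hc.le_one' hcR hχ hχ1).const_mul hC).mono
    fun t n ht ht1 => ?_
  rw [← integral_const_mul]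
  have hd := Test.sub (A.M_test ht (Z.test n)) (Z.test n)
  refine integral_mono_of_nonneg (Eventually.of_forall fun x => ?_)
    ((Test.integrable (hc.test'.mul (hd.1.pow 2))).const_mul _) (Eventually.of_forall fun x => ?_)
  · have h1 := hc.nonneg x
    have h2 := S.a_pos x
    have h3 := S.rho_pos x
    simp only [Pi.zero_apply]
    positivity
  · have h1 := hc.le x
    have h2 := S.a_pos x
    have h3 := S.rho_pos x
    have h4 := h x
    beta_reduce
    set v := (A.M t (Z.ξ n) x - Z.ξ n x) ^ 2 with hv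
    have hv0 : 0 ≤ v := sq_nonneg _
    calc c x * (S.a x * v) * S.rho x = c x * (S.a x * v * S.rho x) := by ring
      _ ≤ c' x * (S.a x * v * S.rho x) := mul_le_mul_of_nonneg_right h1 (by positivity)
      _ = (c' x * (S.a x * S.rho x)) * v := by ring
      _ ≤ (C * c' x) * v := mul_le_mul_of_nonneg_right h4 hv0
      _ = _ := by ring

theorem err2 (hG : Dat.Bd G) (hc : Cut κ c c') {R : ℝ} (hcR : ∀ x, R ≤ ‖x‖ → c' x = 0)
    (hχ : Test χ) (hχ1 : ∀ y, ‖y‖ < R + 3 → χ y = 1) :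
    Small (fun t n => ∫ x, c x * (S.om x * S.res G (A.M t (Z.ξ n)) x ^ 2) * S.rho x) := by
  have hinv : Continuous (fun x => S.om x * (S.rho x)⁻¹) :=
    S.om_contDiff.continuous.mul (S.rho_contDiff.continuous.inv₀ fun x => (S.rho_pos x).ne')
  obtain ⟨C, hC, h⟩ := supp_bound hc.test' hc.nonneg' hinv
  refine ((Z.res_small A hG hc.test' hc.nonneg' hc.le_one' hcR hχ hχ1).const_mul hC).mono
    fun t n ht ht1 => ?_
  rw [← integral_const_mul]
  have hd := S.res_contDiff hG.smooth (A.M_test ht (Z.test n)).1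
  refine integral_mono_of_nonneg (Eventually.of_forall fun x => ?_)
    ((Test.integrable (hc.test'.mul ((S.rho_contDiff.mul hd).pow 2))).const_mul _)
    (Eventually.of_forall fun x => ?_)
  · have h1 := hc.nonneg x
    have h2 := S.om_pos x
    have h3 := S.rho_pos x
    simp only [Pi.zero_apply]
    positivity
  · have h1 := hc.le x
    have h2 := S.om_pos x
    have h3 := S.rho_pos x
    have h4 := h x
    beta_reduce
    set v := S.res G (A.M t (Z.ξ n)) x with hv
    calc c x * (S.om x * v ^ 2) * S.rho x = c x * (S.om x * v ^ 2 * S.rho x) := by ring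
      _ ≤ c' x * (S.om x * v ^ 2 * S.rho x) := mul_le_mul_of_nonneg_right h1 (by positivity)
      _ = (c' x * (S.om x * (S.rho x)⁻¹)) * (S.rho x * v) ^ 2 := by field_simp
      _ ≤ (C * c' x) * (S.rho x * v) ^ 2 := mul_le_mul_of_nonneg_right h4 (sq_nonneg _)
      _ = _ := by ring

theorem err34 (hG : Dat.Bd G) (hc : Cut κ c c') {R : ℝ} (hcR : ∀ x, R ≤ ‖x‖ → c' x = 0)
    (hχ : Test χ) (hχ1 : ∀ y, ‖y‖ < R + 3 → χ y = 1) {g : Eu k → ℝ} (hg : Continuous g)
    {W : (Eu k → ℝ) → Eu k → ℝ} (hW0 : ∀ d x, 0 ≤ W d x)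
    (hW : ∀ d x, W d x ≤ g x * ∑ j, D j d x ^ 2) :
    Small (fun t n => ∫ x, c' x * W (fun y => A.M t (Z.ξ n) y - Z.ξ n y) x) := by
  obtain ⟨C, hC, h⟩ := supp_bound hc.test' hc.nonneg' hg
  refine ((Small.sum Finset.univ fun j => Z.grad_small A hG hc.nonneg' hc.le_one' hcR hχ hχ1
    j).const_mul hC).mono fun t n ht ht1 => ?_
  have hη := A.M_test ht (Z.test n)
  have i0 : ∀ j, Integrable (fun x => c' x * (D j (A.M t (Z.ξ n)) x - D j (Z.ξ n) x) ^ 2) :=
    fun j => Test.integrable (hc.test'.mul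
      (((D_contDiff hη.1 j).sub (D_contDiff (Z.test n).1 j)).pow 2))
  rw [← integral_finsetSum _ fun j _ => i0 j, ← integral_const_mul]
  refine integral_mono_of_nonneg (Eventually.of_forall fun x => mul_nonneg (hc.nonneg' x)
    (hW0 _ x)) ((integrable_finsetSum _ fun j _ => i0 j).const_mul _)
    (Eventually.of_forall fun x => ?_)
  beta_reduce
  have h1 := hW (fun y => A.M t (Z.ξ n) y - Z.ξ n y) x
  have h2 := hc.nonneg' x
  have h4 := h x
  have e1 : ∀ j, D j (fun y => A.M t (Z.ξ n) y - Z.ξ n y) x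
      = D j (A.M t (Z.ξ n)) x - D j (Z.ξ n) x := fun j => D_sub hη.1 (Z.test n).1
  simp only [e1] at h1
  rw [← Finset.mul_sum]
  set v := ∑ j, (D j (A.M t (Z.ξ n)) x - D j (Z.ξ n) x) ^ 2 with hv
  have hv0 : 0 ≤ v := Finset.sum_nonneg fun j _ => sq_nonneg _
  calc c' x * W (fun y => A.M t (Z.ξ n) y - Z.ξ n y) x ≤ c' x * (g x * v) :=
        mul_le_mul_of_nonneg_left h1 h2
    _ = (c' x * g x) * v := by ring
    _ ≤ (C * c' x) * v := mul_le_mul_of_nonneg_right h4 hv0
    _ = _ := by ring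

include A in
/-- the localised Bochner inequality for the near-minimisers -/
theorem near_bochner (hG : Dat.Bd G) (hκ : 0 ≤ κ) (hκ1 : κ ≤ 1 / 2) (hc : Cut κ c c')
    {R : ℝ} (hcR : ∀ x, R ≤ ‖x‖ → c' x = 0) (hχ : Test χ) (hχ1 : ∀ y, ‖y‖ < R + 3 → χ y = 1)
    {ε : ℝ} (hε : 0 < ε) :
    ∀ᶠ n in atTop, (87 / 100 - κ) * (∫ x, c x * S.om x * (∑ j, S.Fl (Z.ξ n) j x ^ 2) * S.rho x)
      ≤ (121 / 100 * (11 / 10 + κ) + 33 / 100 * (κ / S.δ)) * S.Jf G (Z.ξ n) + ε := by
  have hr := S.rho_contDiff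
  have ho := S.om_contDiff
  have hqs : ContDiff ℝ ∞ (fun x => 1 / 4 * ∑ i, ∑ j, S.q i j x ^ 2) :=
    contDiff_const.mul (ContDiff.sum fun i _ => ContDiff.sum fun j _ => (S.q_contDiff i j).pow 2)
  have s1 := Z.err1 A hG hc hcR hχ hχ1
  have s2 := Z.err2 A hG hc hcR hχ hχ1
  have s3 := Z.err34 A hG hc hcR hχ hχ1
    (g := fun x => (1 / 2 * (1 / 4 * ∑ i, ∑ j, S.q i j x ^ 2) + 1 / 2) * S.rho x)
    (((contDiff_const.mul hqs).add contDiff_const).mul hr).continuous
    (W := fun d x => S.en d d x * S.rho x)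
    (fun d x => mul_nonneg (S.en_nonneg d x) (S.rho_pos x).le) (fun d x => by
      have := mul_le_mul_of_nonneg_right (S.en_le d x) (S.rho_pos x).le
      refine this.trans (le_of_eq ?_)
      ring)
  have s4 := Z.err34 A hG hc hcR hχ hχ1
    (g := fun x => S.om x * (1 / 4 * ∑ i, ∑ j, S.q i j x ^ 2) * S.rho x)
    ((ho.mul hqs).mul hr).continuous
    (W := fun d x => S.om x * (∑ j, S.Fl d j x ^ 2) * S.rho x)
    (fun d x => mul_nonneg (mul_nonneg (S.om_pos x).le (Finset.sum_nonneg fun j _ => sq_nonneg _))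
      (S.rho_pos x).le) (fun d x => by
      have := mul_le_mul_of_nonneg_right (mul_le_mul_of_nonneg_left (S.Fl_sq_le d x)
        (S.om_pos x).le) (S.rho_pos x).le
      refine this.trans (le_of_eq ?_)
      ring)
  obtain ⟨t, ht, ht1, hev⟩ := (((s1.add s2).add s3).add s4).elim
    (show (0 : ℝ) < ε / 40 by positivity)
  filter_upwards [hev] with n hn
  set ξ := Z.ξ n with hξd
  have hξ : Test ξ := Z.test n
  set η := A.M t ξ with hηd
  have hη : Test η := A.M_test ht hξ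
  have hT := S.trans_ineq hG.smooth hξ hη hκ hκ1 hc
  set X := ∫ x, c x * S.om x * (∑ j, S.Fl ξ j x ^ 2) * S.rho x
  set Ja := ∫ x, c x * (S.a x * (ξ x - G x) ^ 2) * S.rho x with hJa
  set Je := ∫ x, c x * S.en ξ ξ x * S.rho x with hJe
  set X' := ∫ x, c' x * S.om x * (∑ j, S.Fl ξ j x ^ 2) * S.rho x with hX'
  set e1 := ∫ x, c x * (S.a x * (η x - ξ x) ^ 2) * S.rho x with he1
  set e2 := ∫ x, c x * (S.om x * S.res G η x ^ 2) * S.rho x with he2
  set e3 := ∫ x, c x * S.en (fun y => η y - ξ y) (fun y => η y - ξ y) x * S.rho x with he3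
  set e4 := ∫ x, c' x * S.om x * (∑ j, S.Fl (fun y => η y - ξ y) j x ^ 2) * S.rho x with he4
  have hct := hc.test
  have hct' := hc.test'
  have hd : Test (fun y => η y - ξ y) := Test.sub hη hξ
  have n1 : 0 ≤ e1 := integral_nonneg fun x => by
    have h1 := hc.nonneg x
    have h2 := S.a_pos x
    have h3 := S.rho_pos x
    positivity
  have n2 : 0 ≤ e2 := integral_nonneg fun x => by
    have h1 := hc.nonneg x
    have h2 := S.om_pos x
    have h3 := S.rho_pos x
    positivity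
  have n4 : 0 ≤ e4 := integral_nonneg fun x => by
    have h1 := hc.nonneg' x
    have h2 := S.om_pos x
    have h3 := S.rho_pos x
    have h5 : 0 ≤ ∑ j, S.Fl (fun y => η y - ξ y) j x ^ 2 := Finset.sum_nonneg fun j _ => sq_nonneg _
    positivity
  have m4 : e4 = ∫ x, c' x * (S.om x * (∑ j, S.Fl (fun y => η y - ξ y) j x ^ 2) * S.rho x) := by
    rw [he4]
    exact integral_congr_ae (Eventually.of_forall fun x => by ring)
  have m3 : e3 ≤ ∫ x, c' x * (S.en (fun y => η y - ξ y) (fun y => η y - ξ y) x * S.rho x) := by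
    rw [he3]
    refine integral_mono (Test.integrable ((hct.mul (S.en_contDiff hd.1 hd.1)).mul hr))
      (Test.integrable (hct'.mul ((S.en_contDiff hd.1 hd.1).mul hr))) fun x => ?_
    beta_reduce
    have h1 := hc.le x
    have h2 := mul_nonneg (S.en_nonneg (fun y => η y - ξ y) x) (S.rho_pos x).le
    have := mul_le_mul_of_nonneg_right h1 h2
    linarith
  rw [← m4] at hn
  have hsum : e1 + e2 + e3 + e4 ≤ ε / 40 := by linarith
  -- `Ja + Je ≤ J`
  have hJ : Ja + Je ≤ S.Jf G ξ := by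
    have i1 : Integrable (fun x => c x * (S.a x * (ξ x - G x) ^ 2) * S.rho x) :=
      Test.integrable ((hct.mul (S.a_contDiff.mul ((hξ.1.sub hG.smooth).pow 2))).mul hr)
    have i2 : Integrable (fun x => c x * S.en ξ ξ x * S.rho x) :=
      Test.integrable ((hct.mul (S.en_contDiff hξ.1 hξ.1)).mul hr)
    rw [hJa, hJe, ← integral_add i1 i2]
    refine integral_mono (i1.add i2) (S.J_int hG hξ) fun x => ?_
    simp only [Pi.add_apply]
    have h1 := hc.le_one x
    have h2 := S.a_pos x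
    have h3 := S.rho_pos x
    have h4 := S.en_nonneg ξ x
    have h5 : c x * ((S.a x * (ξ x - G x) ^ 2 + S.en ξ ξ x) * S.rho x)
        ≤ 1 * ((S.a x * (ξ x - G x) ^ 2 + S.en ξ ξ x) * S.rho x) :=
      mul_le_mul_of_nonneg_right h1 (by positivity)
    linarith
  have hJe0 : 0 ≤ Je := integral_nonneg fun x => by
    have h1 := hc.nonneg x
    have h3 := S.rho_pos x
    have h4 := S.en_nonneg ξ x
    positivity
  have hX1 : X' ≤ 1 / (20 * S.δ) * S.Jf G ξ := by
    have i1 : Integrable (fun x => c' x * S.om x * (∑ j, S.Fl ξ j x ^ 2) * S.rho x) :=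
      Test.integrable (((hct'.mul ho).mul (S.sq_contDiff hξ.1)).mul hr)
    unfold Dat.Jf
    rw [hX', ← integral_const_mul]
    refine integral_mono i1 ((S.J_int hG hξ).const_mul _) fun x => ?_
    beta_reduce
    have h1 := hc.le_one' x
    have h1' := hc.nonneg' x
    have h2 := S.a_pos x
    have h3 := S.rho_pos x
    have h4 := S.en_lower ξ x
    have h5 := S.om_pos x
    have h6 := S.om_le x
    have h7 := S.hδ
    have hf0 : 0 ≤ ∑ j, S.Fl ξ j x ^ 2 := Finset.sum_nonneg fun j _ => sq_nonneg _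
    have h8 : ∑ j, S.Fl ξ j x ^ 2 ≤ 1 / (2 * S.δ) * S.en ξ ξ x := by
      rw [one_div, ← div_eq_inv_mul, le_div_iff₀ (by positivity)]
      linarith
    have h9 : c' x * S.om x ≤ 1 * (1 / 10) := mul_le_mul h1 h6 h5.le (by norm_num)
    calc c' x * S.om x * (∑ j, S.Fl ξ j x ^ 2) * S.rho x
        ≤ (1 * (1 / 10)) * (1 / (2 * S.δ) * S.en ξ ξ x) * S.rho x :=
          mul_le_mul_of_nonneg_right (mul_le_mul h9 h8 hf0 (by norm_num)) h3.le
      _ = 1 / (20 * S.δ) * (S.en ξ ξ x * S.rho x) := by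
          field_simp
          ring
      _ ≤ 1 / (20 * S.δ) * ((S.a x * (ξ x - G x) ^ 2 + S.en ξ ξ x) * S.rho x) := by
          apply mul_le_mul_of_nonneg_left _ (by positivity)
          apply mul_le_mul_of_nonneg_right _ h3.le
          have : 0 ≤ S.a x * (ξ x - G x) ^ 2 := by positivity
          linarith
  have hδ := S.hδ
  have hX2 : κ * X' ≤ κ * (1 / (20 * S.δ) * S.Jf G ξ) := mul_le_mul_of_nonneg_left hX1 hκ
  have hX3 : κ * (1 / (20 * S.δ) * S.Jf G ξ) = 1 / 20 * (κ / S.δ) * S.Jf G ξ := by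
    field_simp
  have n3 : 0 ≤ e3 := integral_nonneg fun x => by
    have h1 := hc.nonneg x
    have h3 := S.rho_pos x
    have h4 := S.en_nonneg (fun y => η y - ξ y) x
    positivity
  have k1 : (11 / 10 + κ) * e1 ≤ (11 / 10 + 1 / 2) * e1 :=
    mul_le_mul_of_nonneg_right (by linarith) n1
  have k2 : (11 / 10 + κ) * e2 ≤ (11 / 10 + 1 / 2) * e2 :=
    mul_le_mul_of_nonneg_right (by linarith) n2
  have k4 : κ * e4 ≤ 1 / 2 * e4 := mul_le_mul_of_nonneg_right hκ1 n4
  have k5 : Je ≤ (11 / 10 + κ) * Je := by nlinarith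
  have k6 := mul_le_mul_of_nonneg_left hJ (show (0 : ℝ) ≤ 121 / 100 * (11 / 10 + κ) by positivity)
  linarith

end Mseq

end

end Vale.Agent.P262.H853
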